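import Mathlib
import Crest.Prelude.Def_EditDistance

/-!
Basic bounds for the edit distance, and a comma-free binary encoding of a finite alphabet.
-/

set_option autoImplicit false

namespace Crest.Agent.R210

open Crest.GeometryTopology.EditDistance List

variable {α : Type*}

theorem adj_iff {u v : List α} : (editGraph α).Adj u v ↔
    u ≠ v ∧ ((IsInsertion u v ∨ IsSubstitution u v) ∨ (IsInsertion v u ∨ IsSubstitution v u)) := by
  simp [editGraph, SimpleGraph.fromRel_adj]

theorem adj_cons (a : α) (l : List α) : (editGraph α).Adj l (a :: l) := by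
  rw [adj_iff]
  exact ⟨fun h => by simpa using congrArg List.length h, Or.inl (Or.inl ⟨[], l, a, rfl, rfl⟩)⟩

/-- Prepending a symbol is a homomorphism of the edit graph. -/
def consHom (a : α) : editGraph α →g editGraph α where
  toFun l := a :: l
  map_rel' := by
    intro u v h
    rw [adj_iff] at h ⊢
    refine ⟨fun h' => h.1 (by simpa using h'), ?_⟩
    rcases h.2 with (⟨l, r, b, rfl, rfl⟩ | ⟨l, r, b, c, hbc, rfl, rfl⟩) |
      (⟨l, r, b, rfl, rfl⟩ | ⟨l, r, b, c, hbc, rfl, rfl⟩)
    · exact Or.inl (Or.inl ⟨a :: l, r, b, rfl, rfl⟩)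
    · exact Or.inl (Or.inr ⟨a :: l, r, b, c, hbc, rfl, rfl⟩)
    · exact Or.inr (Or.inl ⟨a :: l, r, b, rfl, rfl⟩)
    · exact Or.inr (Or.inr ⟨a :: l, r, b, c, hbc, rfl, rfl⟩)

theorem walk_of_sublist {u v : List α} (h : u <+ v) :
    ∃ p : (editGraph α).Walk u v, p.length + u.length = v.length := by
  induction h with
  | slnil => exact ⟨SimpleGraph.Walk.nil, rfl⟩
  | cons a _ ih =>
    obtain ⟨p, hp⟩ := ih
    exact ⟨p.concat (adj_cons a _), by simp; omega⟩
  | cons_cons a _ ih =>
    obtain ⟨p, hp⟩ := ih
    refine ⟨p.map (consHom a), ?_⟩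
    have := SimpleGraph.Walk.length_map (consHom a) p
    simp only [length_cons]
    exact (congrArg (· + _) this).trans (by omega)

theorem reachable (u v : List α) : (editGraph α).Reachable u v := by
  obtain ⟨p, -⟩ := walk_of_sublist (nil_sublist u)
  obtain ⟨q, -⟩ := walk_of_sublist (nil_sublist v)
  exact ⟨p.reverse.append q⟩

theorem editDist_le_of_common {w u v : List α} (hu : w <+ u) (hv : w <+ v) :
    editDist u v + 2 * w.length ≤ u.length + v.length := by
  obtain ⟨p, hp⟩ := walk_of_sublist hu
  obtain ⟨q, hq⟩ := walk_of_sublist hv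
  have := SimpleGraph.dist_le (p.reverse.append q)
  simp only [SimpleGraph.Walk.length_append, SimpleGraph.Walk.length_reverse] at this
  unfold editDist
  omega

/-- The words of `ts` occur in `w` disjointly and in this order. -/
def Occ : List (List α) → List α → Prop
  | [], _ => True
  | t :: ts, w => ∃ a b, w = a ++ t ++ b ∧ Occ ts b

theorem Occ.prepend {ts : List (List α)} {w : List α} (h : Occ ts w) (c : List α) :
    Occ ts (c ++ w) := by
  cases ts with
  | nil => trivial
  | cons t ts =>
    obtain ⟨a, b, rfl, hb⟩ := h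
    exact ⟨c ++ a, b, by simp, hb⟩

theorem Occ.edit {β : Type*} (e : β → List α) (xs : List β) :
    ∀ (l c c' r : List α), c.length ≤ 1 → Occ (xs.map e) (l ++ c ++ r) →
      ∃ ys, ys <+ xs ∧ xs.length ≤ ys.length + 1 ∧ Occ (ys.map e) (l ++ c' ++ r) := by
  induction xs with
  | nil => intro l c c' r _ _; exact ⟨[], Sublist.slnil, by simp, trivial⟩
  | cons x xs ih =>
    intro l c c' r hc h
    obtain ⟨a, b, hab, hb⟩ := h
    by_cases hlen : (a ++ e x).length ≤ l.length
    · rw [append_assoc l] at hab
      obtain ⟨l', rfl⟩ : ∃ l', l = (a ++ e x) ++ l' := by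
        have h1 : (a ++ e x) <+: l ++ (c ++ r) := ⟨b, hab.symm⟩
        have h2 : l <+: l ++ (c ++ r) := prefix_append _ _
        obtain ⟨l', hl'⟩ := prefix_of_prefix_length_le h1 h2 hlen
        exact ⟨l', hl'.symm⟩
      rw [append_assoc (a ++ e x)] at hab
      have hb' : b = l' ++ c ++ r := by
        rw [append_assoc]; exact (append_cancel_left hab).symm
      obtain ⟨ys, h1, h2, h3⟩ := ih l' c c' r hc (hb' ▸ hb)
      refine ⟨x :: ys, h1.cons_cons x, by simp; omega, a, l' ++ c' ++ r, by simp, h3⟩
    · obtain ⟨d, hd⟩ : ∃ d, a ++ e x = (l ++ c) ++ d := by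
        have h1 : (a ++ e x) <+: l ++ c ++ r := ⟨b, hab.symm⟩
        have h2 : l ++ c <+: l ++ c ++ r := prefix_append _ _
        obtain ⟨d, hd⟩ := prefix_of_prefix_length_le h2 h1 (by simp at hlen ⊢; omega)
        exact ⟨d, hd.symm⟩
      rw [hd, append_assoc (l ++ c)] at hab
      have hr : r = d ++ b := append_cancel_left hab
      refine ⟨xs, sublist_cons_self x xs, by simp, ?_⟩
      rw [hr, ← append_assoc]
      exact hb.prepend _

theorem Occ.adj {β : Type*} (e : β → List α) (xs : List β) {u v : List α}
    (h : (editGraph α).Adj u v) (hu : Occ (xs.map e) u) :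
    ∃ ys, ys <+ xs ∧ xs.length ≤ ys.length + 1 ∧ Occ (ys.map e) v := by
  rcases (adj_iff.1 h).2 with (⟨l, r, b, rfl, rfl⟩ | ⟨l, r, b, c, -, rfl, rfl⟩) |
    (⟨l, r, b, rfl, rfl⟩ | ⟨l, r, b, c, -, rfl, rfl⟩)
  · simpa using Occ.edit e xs l [] [b] r (by simp) (by simpa using hu)
  · simpa using Occ.edit e xs l [b] [c] r (by simp) (by simpa using hu)
  · simpa using Occ.edit e xs l [b] [] r (by simp) (by simpa using hu)
  · simpa using Occ.edit e xs l [c] [b] r (by simp) (by simpa using hu)

theorem Occ.walk {β : Type*} (e : β → List α) {u v : List α} (p : (editGraph α).Walk u v) :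
    ∀ xs : List β, Occ (xs.map e) u →
      ∃ ys, ys <+ xs ∧ xs.length ≤ ys.length + p.length ∧ Occ (ys.map e) v := by
  induction p with
  | nil => intro xs h; exact ⟨xs, Sublist.refl _, by simp, h⟩
  | cons hadj p ih =>
    intro xs h
    obtain ⟨ys, h1, h2, h3⟩ := Occ.adj e xs hadj h
    obtain ⟨zs, h4, h5, h6⟩ := ih ys h3
    exact ⟨zs, h4.trans h1, by simp; omega, h6⟩

theorem occ_flatMap {β : Type*} (e : β → List α) (xs : List β) : Occ (xs.map e) (xs.flatMap e) := by
  induction xs with
  | nil => trivial
  | cons x xs ih => exact ⟨[], xs.flatMap e, by simp, ih⟩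

/-- A comma-free code of constant length. -/
structure CommaFree {β : Type*} (e : β → List α) (L : ℕ) : Prop where
  length_eq : ∀ b, (e b).length = L
  pos : 0 < L
  inj : Function.Injective e
  free : ∀ (b b' : β) (a c w : List α), 0 < a.length → a.length < L → e b' ++ w ≠ a ++ e b ++ c

theorem CommaFree.sublist_of_occ {β : Type*} {e : β → List α} {L : ℕ} (he : CommaFree e L)
    (y : List β) : ∀ xs : List β, Occ (xs.map e) (y.flatMap e) → xs <+ y := by
  induction y with
  | nil =>
    intro xs h
    cases xs with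
    | nil => exact Sublist.slnil
    | cons x xs =>
      obtain ⟨a, b, hab, -⟩ := h
      have := congrArg List.length hab
      have h1 := he.length_eq x
      have h2 := he.pos
      simp at this
      omega
  | cons y ys ih =>
    intro xs h
    cases xs with
    | nil => exact nil_sublist _
    | cons x xs =>
      obtain ⟨a, b, hab, hb⟩ := h
      rw [flatMap_cons] at hab
      rcases Nat.eq_zero_or_pos a.length with h0 | h0
      · rw [length_eq_zero_iff.1 h0, nil_append] at hab
        obtain ⟨h1, h2⟩ := append_inj hab (by rw [he.length_eq, he.length_eq])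
        rw [he.inj h1]
        exact (ih xs (h2 ▸ hb)).cons_cons x
      · by_cases hL : a.length < L
        · exact absurd hab (he.free x y a b _ h0 hL)
        · obtain ⟨a', rfl⟩ : ∃ a', a = e y ++ a' := by
            have h1 : e y <+: a ++ e x ++ b := ⟨_, hab⟩
            have h2 : a <+: a ++ e x ++ b := by rw [append_assoc]; exact prefix_append _ _
            obtain ⟨d, hd⟩ := prefix_of_prefix_length_le h1 h2 (by rw [he.length_eq]; omega)
            exact ⟨d, hd.symm⟩
          rw [append_assoc, append_assoc] at hab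
          have h3 := append_cancel_left hab
          refine (ih (x :: xs) ⟨a', b, ?_, hb⟩).cons y
          rw [h3, append_assoc]

theorem CommaFree.exists_common {β : Type*} {e : β → List α} {L : ℕ} (he : CommaFree e L)
    (x y : List β) : ∃ zs, zs <+ x ∧ zs <+ y ∧
      x.length ≤ zs.length + editDist (x.flatMap e) (y.flatMap e) := by
  obtain ⟨p, hp⟩ := (reachable (x.flatMap e) (y.flatMap e)).exists_walk_length_eq_dist
  obtain ⟨zs, h1, h2, h3⟩ := Occ.walk e p x (occ_flatMap e x)
  exact ⟨zs, h1, he.sublist_of_occ y zs h3, by rw [hp] at h2; exact h2⟩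

theorem CommaFree.length_flatMap {β : Type*} {e : β → List α} {L : ℕ} (he : CommaFree e L)
    (x : List β) : (x.flatMap e).length = x.length * L := by
  induction x with
  | nil => simp
  | cons a x ih => rw [flatMap_cons, length_append, ih, he.length_eq, length_cons]; ring

theorem CommaFree.editDist_le {β : Type*} {e : β → List α} {L : ℕ} (he : CommaFree e L)
    {w x y : List β} (hx : w <+ x) (hy : w <+ y) (n : ℕ) (hxn : x.length = w.length + n)
    (hyn : y.length = w.length + n) : editDist (x.flatMap e) (y.flatMap e) ≤ 2 * n * L := by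
  have := editDist_le_of_common (hx.flatMap e) (hy.flatMap e)
  rw [he.length_flatMap, he.length_flatMap, he.length_flatMap, hxn, hyn] at this
  nlinarith

/-- The binary code word of the number `a`. -/
def codeNat (L a : ℕ) : List Bool :=
  List.ofFn (fun i : Fin (2 * L + 3) =>
    if (i : ℕ) ≤ 1 then true else if (i : ℕ) % 2 = 0 then false else a.testBit (((i : ℕ) - 3) / 2))

theorem exists_commaFree (β : Type*) [Fintype β] (L : ℕ) (h : Fintype.card β ≤ 2 ^ L) :
    ∃ e : β → List Bool, CommaFree e (2 * L + 3) := by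
  classical
  let ι : β → ℕ := fun b => Fintype.equivFin β b
  have hι : ∀ b, ι b < 2 ^ L := fun b => lt_of_lt_of_le (Fintype.equivFin β b).2 h
  have hget : ∀ a i, i < 2 * L + 3 → (codeNat L a)[i]? = some (if i ≤ 1 then true
      else if i % 2 = 0 then false else a.testBit ((i - 3) / 2)) := by
    intro a i hi
    rw [codeNat, List.getElem?_ofFn, dif_pos hi]
  have hlen : ∀ a, (codeNat L a).length = 2 * L + 3 := fun a => by simp [codeNat]
  refine ⟨fun b => codeNat L (ι b), fun b => hlen _, by omega, ?_, ?_⟩
  · intro b b' hbb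
    have : ι b = ι b' := by
      refine Nat.eq_of_testBit_eq (fun j => ?_)
      by_cases hj : j < L
      · have h1 := hget (ι b) (2 * j + 3) (by omega)
        have h2 := hget (ι b') (2 * j + 3) (by omega)
        simp only at hbb
        rw [hbb, h2] at h1
        have e1 : ¬ (2 * j + 3 ≤ 1) := by omega
        have e2 : ¬ ((2 * j + 3) % 2 = 0) := by omega
        have e3 : (2 * j + 3 - 3) / 2 = j := by omega
        simp only [e1, e2, e3, if_false, Option.some.injEq] at h1
        exact h1.symm
      · have hp : 2 ^ L ≤ 2 ^ j := Nat.pow_le_pow_right (by norm_num) (by omega)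
        rw [Nat.testBit_eq_false_of_lt (lt_of_lt_of_le (hι b) hp),
          Nat.testBit_eq_false_of_lt (lt_of_lt_of_le (hι b') hp)]
    exact (Fintype.equivFin β).injective (Fin.ext this)
  · intro b b' a c w h0 hL heq
    obtain ⟨i, hi1, hi2, hi3, hi4⟩ : ∃ i, i ≤ 1 ∧ a.length + i < 2 * L + 3 ∧
        (a.length + i) % 2 = 0 ∧ 2 ≤ a.length + i := by
      rcases Nat.mod_two_eq_zero_or_one a.length with h | h
      · exact ⟨0, by omega, by omega, by omega, by omega⟩
      · exact ⟨1, by omega, by omega, by omega, by omega⟩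
    have h1 := congrArg (·[a.length + i]?) heq
    rw [getElem?_append_left (by rw [hlen]; exact hi2), hget _ _ hi2, append_assoc,
      getElem?_append_right (by omega), getElem?_append_left (by rw [hlen]; omega),
      hget _ _ (by omega)] at h1
    have e1 : ¬ (a.length + i ≤ 1) := by omega
    have e2 : a.length + i - a.length ≤ 1 := by omega
    rw [if_neg e1, if_pos hi3, if_pos e2] at h1
    simp at h1

/-- A common subsequence of two words given by positions yields a monotone matching. -/
theorem exists_matching {β : Type*} {n : ℕ} (x y : Fin n → β) {w : List β}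
    (hx : w <+ List.ofFn x) (hy : w <+ List.ofFn y) :
    ∃ f g : Fin w.length → Fin n, StrictMono f ∧ StrictMono g ∧ ∀ t, x (f t) = y (g t) := by
  obtain ⟨f, hf⟩ := sublist_iff_exists_fin_orderEmbedding_get_eq.1 hx
  obtain ⟨g, hg⟩ := sublist_iff_exists_fin_orderEmbedding_get_eq.1 hy
  refine ⟨fun t => (f t).cast (by simp), fun t => (g t).cast (by simp), ?_, ?_, fun t => ?_⟩
  · intro a b hab; exact f.strictMono hab
  · intro a b hab; exact g.strictMono hab
  · have h1 := hf t
    have h2 := hg t
    rw [h1] at h2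
    rw [List.get_ofFn, List.get_ofFn] at h2
    exact h2

theorem ofFn_comp_sublist {β : Type*} {n m : ℕ} (x : Fin n → β) (f : Fin m → Fin n)
    (hf : StrictMono f) : List.ofFn (x ∘ f) <+ List.ofFn x := by
  rw [sublist_iff_exists_fin_orderEmbedding_get_eq]
  refine ⟨OrderEmbedding.ofStrictMono (fun t => (f (t.cast (by simp))).cast (by simp)) ?_, ?_⟩
  · intro a b hab; exact hf hab
  · intro t
    rw [List.get_ofFn, List.get_ofFn]
    rfl

/-- Upper bound for the edit distance from a monotone partial matching of the positions. -/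
theorem CommaFree.editDist_le_of_matching {β : Type*} {e : β → List α} {L : ℕ}
    (he : CommaFree e L) {n : ℕ} (x y : Fin n → β) (bad : Finset (Fin n)) (φ : Fin n → Fin n)
    (hφ : ∀ p p', p ∉ bad → p' ∉ bad → p < p' → φ p < φ p') (hxy : ∀ p, p ∉ bad → y p = x (φ p)) :
    editDist ((List.ofFn x).flatMap e) ((List.ofFn y).flatMap e) ≤ 2 * bad.card * L := by
  let g := badᶜ.orderEmbOfFin rfl
  have hg : ∀ t, g t ∉ bad := fun t => Finset.mem_compl.1 (Finset.orderEmbOfFin_mem _ rfl t)
  have h1 := ofFn_comp_sublist y g g.strictMono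
  have h2 := ofFn_comp_sublist x (φ ∘ g) (fun a b hab => hφ _ _ (hg a) (hg b) (g.strictMono hab))
  have h3 : y ∘ g = x ∘ (φ ∘ g) := funext (fun t => hxy _ (hg t))
  rw [← h3] at h2
  have h4 : n = badᶜ.card + bad.card := by
    rw [Finset.card_compl, Fintype.card_fin]
    have := Finset.card_le_univ bad
    rw [Fintype.card_fin] at this
    omega
  exact he.editDist_le h2 h1 _ (by rw [length_ofFn, length_ofFn]; exact h4)
    (by rw [length_ofFn, length_ofFn]; exact h4)

end Crest.Agent.R210
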