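import Crest.Agent.R210.Words

/-!
The lower bound for the distortion: choice of the parameters.
-/

set_option autoImplicit false

namespace Crest.Agent.R210

open Finset Crest.GeometryTopology.EditDistance

theorem distortion_ge {K r : ℕ} [NeZero r] (q : Fin K → Fin r → ℕ) [∀ ℓ, NeZero (MM q ℓ)]
    (R s Y r₀ L : ℕ) (hR0 : 0 < R) (hs : 4 * K * s ≤ r)
    (hodd : ∀ i c, Nat.Coprime 2 (q i c))
    (hcop : ∀ (i j : Fin K) c d, j < i → Nat.Coprime (q i c) (q j d))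
    (hfew : ∀ i (a b : ℕ), a < R → b < R → a ≠ b →
      (univ.filter (fun c => a ≡ b [MOD q i c])).card ≤ s)
    (hY : 1 ≤ Y) (hr₀ : 1 ≤ r₀) (hq0 : ∀ i c, 0 < q i c) (hq : ∀ i c, q i c ≤ Y)
    (hR : r₀ ^ K * (2 * Y ^ K * Y ^ r₀) ^ 2 ≤ R)
    (e : Alph q → List Bool) (he : CommaFree e L)
    (f : List Bool → lp (fun _ : ℕ => ℝ) 1) (σ D : ℝ) (hσ : 0 < σ)
    (hf : ∀ x y : List Bool, x.length = (R * r) ^ K * L → y.length = (R * r) ^ K * L → x ≠ y →
      σ * (editDist x y : ℝ) ≤ ‖f x - f y‖ ∧ ‖f x - f y‖ ≤ D * σ * (editDist x y : ℝ)) :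
    (r₀ : ℝ) ^ K ≤ 16 * L * (K + 1) * D := by
  classical
  have hr : 0 < r := Nat.pos_of_ne_zero (NeZero.ne r)
  let w : St q → List Bool := fun θ => (List.ofFn (sym q R θ)).flatMap e
  have hw : ∀ θ, (w θ).length = (R * r) ^ K * L := fun θ => by
    simp only [w, he.length_flatMap, List.length_ofFn]
  have hn : 0 < (R * r) ^ K := by positivity
  have hn' : (0 : ℝ) < ((R * r) ^ K : ℕ) := by exact_mod_cast hn
  have hfar : ∀ θ, (R * r) ^ K ≤ 2 * editDist (w θ) (w (θ + fun _ => (PP q K : ZMod _))) :=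
    fun θ => le_two_mul_editDist q R he hR0 s hs hodd hcop hfew θ
  have hne : ∀ θ, w θ ≠ w (θ + fun _ => (PP q K : ZMod _)) := by
    intro θ h
    have h1 := hfar θ
    rw [← h, editDist, SimpleGraph.dist_self] at h1
    omega
  have hlow : ∀ θ, σ * ((R * r) ^ K : ℕ) / 2 ≤
      ‖f (w θ) - f (w (θ + fun _ => (PP q K : ZMod _)))‖ := by
    intro θ
    refine le_trans ?_ (hf _ _ (hw _) (hw _) (hne θ)).1
    have h1 : (((R * r) ^ K : ℕ) : ℝ) ≤
        2 * (editDist (w θ) (w (θ + fun _ => (PP q K : ZMod _))) : ℝ) := by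
      exact_mod_cast hfar θ
    nlinarith
  have hD : 0 ≤ D := by
    have h1 := (hlow 0).trans (hf _ _ (hw _) (hw _) (hne 0)).2
    by_contra hcon
    have h2 : D * σ * (editDist (w 0) (w (0 + fun _ => (PP q K : ZMod _))) : ℝ) ≤ 0 :=
      mul_nonpos_of_nonpos_of_nonneg (mul_nonpos_of_nonpos_of_nonneg (not_le.1 hcon).le hσ.le)
        (Nat.cast_nonneg _)
    have h3 : 0 < σ * ((R * r) ^ K : ℕ) / 2 := by positivity
    linarith
  have hup : ∀ (θ θ' : St q) (m : ℕ), editDist (w θ) (w θ') ≤ 2 * m * L →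
      ‖f (w θ) - f (w θ')‖ ≤ D * σ * (2 * L) * m := by
    intro θ θ' m hm
    by_cases h : w θ = w θ'
    · rw [h, sub_self, norm_zero]; positivity
    · refine (hf _ _ (hw _) (hw _) h).2.trans ?_
      have h1 : (editDist (w θ) (w θ') : ℝ) ≤ 2 * m * L := by exact_mod_cast hm
      have h2 : 0 ≤ D * σ := by positivity
      nlinarith
  have hR' : (r₀ : ℝ) ^ K * ((2 * Y ^ K * Y ^ r₀ : ℕ) : ℝ) ^ 2 ≤ (R : ℝ) := by exact_mod_cast hR
  have key := tree_poincare q ⟨0, hr⟩ R Y r₀ hY hr₀ hq0 hq hR' (fun θ => f (w θ))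
  set G : ℝ := (Fintype.card (St q) : ℝ) with hG
  have hG0 : 0 < G := by rw [hG]; exact_mod_cast Fintype.card_pos
  have h1 : G * (σ * ((R * r) ^ K : ℕ) / 2) ≤
      ∑ g, ‖f (w g) - f (w (g + fun _ => (PP q K : ZMod _)))‖ := by
    refine le_trans (le_of_eq ?_) (sum_le_sum (fun g _ => hlow g))
    simp [hG]
  have h2 : ∑ ℓ, ∑ c : ZMod (MM q ℓ), (1 / (MM q ℓ : ℝ)) *
      ∑ g, ‖f (w g) - f (w (g + Pi.single ℓ c))‖ ≤ G * (D * σ * (2 * L)) * ((R * r) ^ K : ℕ) := by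
    rw [← sum_card_single (K := K) (r := r) R, Nat.cast_sum, mul_sum]
    refine sum_le_sum (fun ℓ _ => ?_)
    have hM : (0 : ℝ) < MM q ℓ := by exact_mod_cast Nat.pos_of_ne_zero (NeZero.ne _)
    refine (sum_le_sum (fun c _ => mul_le_mul_of_nonneg_left (sum_le_sum (fun g _ =>
      hup g _ _ (editDist_single q R he g ℓ c))) (by positivity))).trans (le_of_eq ?_)
    simp only [sum_const, card_univ, ZMod.card, nsmul_eq_mul, ← hG]
    field_simp
  have h3 : ∑ ℓ, ∑ i : Fin K, (if Canon ⟨0, hr⟩ i ℓ then (R : ℝ) else 0) *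
      ∑ g, ‖f (w g) - f (w (g + mv q (i + 1) (PP q i) ℓ))‖ ≤
      K * (G * (D * σ * (2 * L)) * ((R * r) ^ K : ℕ)) := by
    rw [sum_comm]
    refine (sum_le_sum (g := fun _ => G * (D * σ * (2 * L)) * ((R * r) ^ K : ℕ))
      (fun i _ => ?_)).trans (by simp)
    have h4 := sum_card_shift (K := K) R hR0 ⟨0, hr⟩ i
    have h5 := (Nat.cast_le (α := ℝ)).2 h4
    refine le_trans ?_ (mul_le_mul_of_nonneg_left h5 (by positivity))
    rw [Nat.cast_sum, mul_sum]
    refine sum_le_sum (fun ℓ _ => ?_)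
    refine (mul_le_mul_of_nonneg_left (sum_le_sum (fun g _ =>
      hup g _ _ (editDist_shift q R he g i ℓ))) (by split_ifs <;> positivity)).trans (le_of_eq ?_)
    simp only [sum_const, card_univ, nsmul_eq_mul, ← hG]
    push_cast
    ring
  have h4 : (r₀ : ℝ) ^ K / 4 * (G * (σ * ((R * r) ^ K : ℕ) / 2)) ≤
      G * (D * σ * (2 * L)) * ((R * r) ^ K : ℕ) +
        K * (G * (D * σ * (2 * L)) * ((R * r) ^ K : ℕ)) :=
    (mul_le_mul_of_nonneg_left h1 (by positivity)).trans (key.trans (add_le_add h2 h3))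
  have h5 : 0 < G * σ * ((R * r) ^ K : ℕ) / 8 := by positivity
  refine le_of_mul_le_mul_left ?_ h5
  linarith

theorem le_primeCounting (K : ℕ) (hK : 1000 ≤ K) : 89 * K ^ 3 ≤ Nat.primeCounting (K ^ 5) := by
  have h1 := Chebyshev.pi_ge (K ^ 5)
  have hK' : (1000 : ℝ) ≤ K := by exact_mod_cast hK
  have hlog : 0 < Real.log K := Real.log_pos (by linarith)
  have hlog' : Real.log K ≤ K := (Real.log_le_sub_one_of_pos (by linarith)).trans (by linarith)
  have h2 : Real.log ((K ^ 5 : ℕ) : ℝ) = 5 * Real.log K := by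
    rw [Nat.cast_pow, Real.log_pow]; norm_num
  have hK5 : (1 : ℝ) ≤ (K : ℝ) ^ 5 := one_le_pow₀ (by linarith)
  have h3 : Real.log (((K ^ 5 : ℕ) : ℝ) + 1) ≤ 6 * Real.log K := by
    have : (6 : ℝ) * Real.log K = Real.log ((K : ℝ) ^ 6) := by rw [Real.log_pow]; norm_num
    rw [this]
    refine Real.log_le_log (by positivity) ?_
    push_cast
    nlinarith
  have h4 := Real.log_two_gt_d9
  rw [h2] at h1
  rw [← Nat.cast_le (α := ℝ)]
  refine le_trans ?_ h1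
  rw [le_div_iff₀ (by positivity)]
  push_cast at h3 ⊢
  have hK3 : (1 : ℝ) ≤ (K : ℝ) ^ 3 := one_le_pow₀ (by linarith)
  have h5 : 89 * (K : ℝ) ^ 3 * (5 * Real.log K) ≤ 445 * (K : ℝ) ^ 4 := by nlinarith
  have h6 : 1000 * (K : ℝ) ^ 4 ≤ (K : ℝ) ^ 5 := by nlinarith
  have h7 : (K : ℝ) ≤ (K : ℝ) ^ 4 := by nlinarith
  nlinarith

theorem exists_primes (K r : ℕ) (hK : 1000 ≤ K) (hr : r = 88 * K ^ 2) :
    ∃ q : Fin K → Fin r → ℕ, (∀ i c, (q i c).Prime) ∧ (∀ i c, K < q i c) ∧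
      (∀ i c, q i c ≤ K ^ 5) ∧ ∀ i c j d, q i c = q j d → i = j ∧ c = d := by
  refine ⟨fun i c => Nat.nth Nat.Prime (K + finProdFinEquiv (i, c)),
    fun i c => Nat.prime_nth_prime _, fun i c => ?_, fun i c => ?_, fun i c j d h => ?_⟩
  · have := Nat.add_two_le_nth_prime (K + finProdFinEquiv (i, c))
    beta_reduce
    omega
  · refine Nat.lt_succ_iff.1 (Nat.nth_lt_of_lt_count ?_)
    have h1 := le_primeCounting K hK
    have h2 := (finProdFinEquiv (i, c)).2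
    have h3 : K ≤ K ^ 3 := Nat.le_self_pow (by norm_num) K
    have h4 : K * r = 88 * K ^ 3 := by rw [hr]; ring
    change _ < Nat.primeCounting (K ^ 5)
    omega
  · have h1 := Nat.nth_injective Nat.infinite_setOfPred_prime h
    have h2 := finProdFinEquiv.injective (Fin.ext (Nat.add_left_cancel h1))
    exact Prod.mk.inj h2

theorem card_modEq_le {K r s : ℕ} (hK : 1 < K) (q : Fin r → ℕ) (hp : ∀ c, (q c).Prime)
    (hq : ∀ c, K < q c) (hinj : Function.Injective q) (a b : ℕ) (ha : a < K ^ s) (hb : b < K ^ s)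
    (hab : a ≠ b) : (univ.filter (fun c => a ≡ b [MOD q c])).card ≤ s := by
  wlog h : a < b generalizing a b
  · have := this b a hb ha hab.symm (by omega)
    simpa only [Nat.ModEq.comm] using this
  set T := univ.filter (fun c => a ≡ b [MOD q c])
  have h1 : ∏ c ∈ T, q c ∣ b - a := by
    refine Finset.prod_dvd_of_isRelPrime (fun c _ d _ hcd => ?_) (fun c hc => ?_)
    · exact Nat.coprime_iff_isRelPrime.1 ((Nat.coprime_primes (hp c) (hp d)).2 (hinj.ne hcd))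
    · exact (Nat.modEq_iff_dvd' h.le).1 (mem_filter.1 hc).2
  have h2 : K ^ T.card ≤ ∏ c ∈ T, q c := pow_card_le_prod _ _ _ (fun c _ => (hq c).le)
  have h3 := Nat.le_of_dvd (by omega) h1
  have h4 : K ^ T.card < K ^ s := by omega
  exact ((Nat.pow_lt_pow_iff_right hK).1 h4).le

theorem exists_length (K : ℕ) (hK : 1000 ≤ K) : ∃ n : ℕ, n ≤ K ^ (23 * K ^ 2) ∧
    ∀ (f : List Bool → lp (fun _ : ℕ => ℝ) 1) (s D : ℝ), 0 < s →
      (∀ x y : List Bool, x.length = n → y.length = n → x ≠ y →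
        s * (editDist x y : ℝ) ≤ ‖f x - f y‖ ∧ ‖f x - f y‖ ≤ D * s * (editDist x y : ℝ)) →
      (K : ℝ) ^ K ≤ (K : ℝ) ^ 4 * D := by
  obtain ⟨r, hr⟩ : ∃ r, r = 88 * K ^ 2 := ⟨_, rfl⟩
  have hK0 : 0 < K := by omega
  have : NeZero r := ⟨by rw [hr]; positivity⟩
  obtain ⟨q, hp, hqK, hqY, hinj⟩ := exists_primes K r hK hr
  have : ∀ ℓ, NeZero (MM q ℓ) := fun ℓ =>
    ⟨mul_ne_zero two_ne_zero (prod_ne_zero_iff.2 (fun i _ => (hp i _).ne_zero))⟩
  have hr3 : r ≤ K ^ 3 := by rw [hr]; nlinarith [pow_pos hK0 2]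
  have hKK : 4 ≤ K ^ K := le_trans (by omega) (Nat.le_self_pow hK0.ne' K)
  have hcard : Fintype.card (Alph q) ≤ 2 ^ (9 * K ^ 2) := by
    have h1 : ∀ ℓ, MM q ℓ ≤ 2 * (K ^ 5) ^ K := fun ℓ => by
      refine Nat.mul_le_mul_left _ ((prod_le_pow_card _ _ _ (fun i _ => hqY i _)).trans ?_)
      simp
    have h2 : Fintype.card (Alph q) ≤ r ^ K * (2 * (K ^ 5) ^ K) := by
      rw [Fintype.card_sigma]
      simp only [ZMod.card]
      refine (sum_le_sum (fun ℓ _ => h1 ℓ)).trans ?_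
      simp
    calc Fintype.card (Alph q) ≤ r ^ K * (2 * (K ^ 5) ^ K) := h2
      _ ≤ (K ^ 3) ^ K * (K ^ K * (K ^ 5) ^ K) := by gcongr; omega
      _ = K ^ (9 * K) := by ring
      _ ≤ (2 ^ K) ^ (9 * K) := by gcongr; exact Nat.lt_two_pow_self.le
      _ = 2 ^ (9 * K ^ 2) := by rw [← pow_mul]; congr 1; ring
  obtain ⟨e, he⟩ := exists_commaFree (Alph q) _ hcard
  have hL : 2 * (9 * K ^ 2) + 3 ≤ 19 * K ^ 2 := by nlinarith
  refine ⟨(K ^ (22 * K) * r) ^ K * (2 * (9 * K ^ 2) + 3), ?_, fun f s D hs hf => ?_⟩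
  · calc (K ^ (22 * K) * r) ^ K * (2 * (9 * K ^ 2) + 3)
        ≤ (K ^ (22 * K) * K ^ 3) ^ K * K ^ 3 := by gcongr; nlinarith [pow_pos hK0 2]
      _ = K ^ (22 * K ^ 2 + 3 * K + 3) := by ring
      _ ≤ K ^ (23 * K ^ 2) := Nat.pow_le_pow_right hK0 (by nlinarith)
  · have key := distortion_ge q (K ^ (22 * K)) (22 * K) (K ^ 5) K _ (by positivity)
      (by rw [hr]; exact le_of_eq (by ring))
      (fun i c => (Nat.coprime_primes Nat.prime_two (hp i c)).2 (by have := hqK i c; omega))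
      (fun i j c d hji => (Nat.coprime_primes (hp i c) (hp j d)).2
        (fun h => hji.ne' (hinj _ _ _ _ h).1))
      (fun i a b ha hb hab => card_modEq_le (by omega) (q i) (hp i) (hqK i)
        (fun c d h => (hinj _ _ _ _ h).2) a b ha hb hab)
      (Nat.one_le_pow _ _ hK0) hK0 (fun i c => (hp i c).pos) hqY
      (by
        calc K ^ K * (2 * (K ^ 5) ^ K * (K ^ 5) ^ K) ^ 2 = 4 * K ^ (21 * K) := by ring
          _ ≤ K ^ K * K ^ (21 * K) := by gcongr
          _ = K ^ (22 * K) := by ring) e he f s D hs hf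
    have hD : 0 ≤ D := by
      by_contra hcon
      have h1 : (0 : ℝ) < (K : ℝ) ^ K := by positivity
      have h2 : (0 : ℝ) ≤ 16 * ((2 * (9 * K ^ 2) + 3 : ℕ) : ℝ) * (K + 1) := by positivity
      nlinarith
    refine key.trans (mul_le_mul_of_nonneg_right ?_ hD)
    have h1 : 16 * (2 * (9 * K ^ 2) + 3) * (K + 1) ≤ K ^ 4 := by
      calc 16 * (2 * (9 * K ^ 2) + 3) * (K + 1) ≤ 16 * (19 * K ^ 2) * (2 * K) := by gcongr; omega
        _ = 608 * K ^ 3 := by ring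
        _ ≤ K * K ^ 3 := by gcongr; omega
        _ = K ^ 4 := by ring
    exact_mod_cast h1

theorem final_bound (K : ℕ) (d D : ℝ) (hK' : (1000 : ℝ) ≤ K) (hd' : 1000 ≤ d)
    (h4 : d ≤ (K : ℝ) ^ (184 * K ^ 2)) (h5 : (K : ℝ) ^ K ≤ (K : ℝ) ^ 4 * D) :
    Real.exp (1 / 56 * Real.sqrt (Real.log d * Real.log (Real.log d))) ≤ D := by
  have hlog : 0 < Real.log K := Real.log_pos (by linarith)
  have hlog' : Real.log K ≤ K := (Real.log_le_sub_one_of_pos (by linarith)).trans (by linarith)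
  have hlogd : 0 < Real.log d := Real.log_pos (by linarith)
  have h6 : Real.log d ≤ 184 * (K : ℝ) ^ 2 * Real.log K := by
    have h := Real.log_le_log (by linarith) h4
    rw [Real.log_pow] at h
    push_cast at h
    exact h
  have h7 : Real.log (Real.log d) ≤ 4 * Real.log K := by
    have : (4 : ℝ) * Real.log K = Real.log ((K : ℝ) ^ 4) := by rw [Real.log_pow]; norm_num
    rw [this]
    refine Real.log_le_log hlogd (h6.trans ?_)
    calc 184 * (K : ℝ) ^ 2 * Real.log K ≤ K * (K : ℝ) ^ 2 * K := by gcongr; linarith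
      _ = (K : ℝ) ^ 4 := by ring
  have h8 : Real.sqrt (Real.log d * Real.log (Real.log d)) ≤ 28 * (K * Real.log K) := by
    rw [Real.sqrt_le_iff]
    refine ⟨by positivity, ?_⟩
    calc Real.log d * Real.log (Real.log d) ≤ Real.log d * (4 * Real.log K) := by gcongr
      _ ≤ 184 * (K : ℝ) ^ 2 * Real.log K * (4 * Real.log K) := by gcongr
      _ = 736 * (K * Real.log K) ^ 2 := by ring
      _ ≤ 784 * (K * Real.log K) ^ 2 := by gcongr; norm_num
      _ = (28 * (K * Real.log K)) ^ 2 := by ring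
  have h9 : Real.exp (K * Real.log K) = (K : ℝ) ^ K := by
    rw [← Real.log_pow, Real.exp_log (by positivity)]
  have h10 : Real.exp (4 * Real.log K) = (K : ℝ) ^ 4 := by
    have : (4 : ℝ) * Real.log K = Real.log ((K : ℝ) ^ 4) := by rw [Real.log_pow]; norm_num
    rw [this, Real.exp_log (by positivity)]
  refine le_of_mul_le_mul_left ?_ (show (0 : ℝ) < (K : ℝ) ^ 4 by positivity)
  refine le_trans ?_ h5
  rw [← h9, ← h10, ← Real.exp_add, Real.exp_le_exp]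
  nlinarith

theorem main :
    ∃ c : ℝ, 0 < c ∧ ∃ d₀ : ℕ, ∀ d : ℕ, d₀ ≤ d → ∃ n : ℕ, n ≤ d ∧
      ∀ (f : List Bool → lp (fun _ : ℕ => ℝ) 1) (s D : ℝ), 0 < s →
        (∀ x y : List Bool, x.length = n → y.length = n → x ≠ y →
          s * (editDist x y : ℝ) ≤ ‖f x - f y‖ ∧ ‖f x - f y‖ ≤ D * s * (editDist x y : ℝ)) →
        Real.exp (c * Real.sqrt (Real.log d * Real.log (Real.log d))) ≤ D := by
  classical
  obtain ⟨K₀, hK₀⟩ : ∃ K₀ : ℕ, 1000 ≤ K₀ := ⟨_, le_rfl⟩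
  refine ⟨1 / 56, by norm_num, K₀ ^ (23 * K₀ ^ 2), fun d hd => ?_⟩
  have hself : ∀ k : ℕ, 0 < k → k ≤ k ^ (23 * k ^ 2) := fun k hk =>
    Nat.le_self_pow (by positivity) k
  obtain ⟨K, hK⟩ : ∃ K, K = Nat.findGreatest (fun k => k ^ (23 * k ^ 2) ≤ d) d := ⟨_, rfl⟩
  have hK₀d : K₀ ≤ d := (hself K₀ (by omega)).trans hd
  have h1 : K₀ ≤ K := hK ▸ Nat.le_findGreatest hK₀d hd
  have h2 : K ^ (23 * K ^ 2) ≤ d :=
    hK ▸ Nat.findGreatest_spec (P := fun k => k ^ (23 * k ^ 2) ≤ d) hK₀d hd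
  have h3 : d < (K + 1) ^ (23 * (K + 1) ^ 2) := by
    by_contra hcon
    have h4 := not_lt.1 hcon
    have := Nat.le_findGreatest (P := fun k => k ^ (23 * k ^ 2) ≤ d)
      ((hself (K + 1) (by omega)).trans h4) h4
    omega
  have hK1 : 1000 ≤ K := by omega
  have h4 : d ≤ K ^ (184 * K ^ 2) := by
    calc d ≤ (K + 1) ^ (23 * (K + 1) ^ 2) := h3.le
      _ ≤ (K ^ 2) ^ (23 * (K + 1) ^ 2) := by
          refine Nat.pow_le_pow_left ?_ _
          clear h3 h2 hd hK hself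
          nlinarith
      _ ≤ (K ^ 2) ^ (23 * (2 * K) ^ 2) :=
          Nat.pow_le_pow_right (pow_pos (by omega) 2)
            (Nat.mul_le_mul_left _ (Nat.pow_le_pow_left (by omega) 2))
      _ = K ^ (184 * K ^ 2) := by rw [← pow_mul]; congr 1; ring
  obtain ⟨n, hn, hmain⟩ := exists_length K hK1
  refine ⟨n, hn.trans h2, fun f s D hs hf => ?_⟩
  have h5 := hmain f s D hs hf
  have hK' : (1000 : ℝ) ≤ K := by exact_mod_cast hK1
  have hd' : (1000 : ℝ) ≤ d := by exact_mod_cast hK₀.trans hK₀d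
  have h6 : (d : ℝ) ≤ (K : ℝ) ^ (184 * K ^ 2) := by exact_mod_cast h4
  exact final_bound K d D hK' hd' h6 h5

end Crest.Agent.R210
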