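import Mathlib

/-!
A Poincaré inequality on a finite abelian group for maps into `ℓ¹`, from an inequality for the
characters.
-/

set_option autoImplicit false

namespace Crest.Agent.R210

open Finset MeasureTheory

variable {G : Type*} [AddCommGroup G] [Fintype G] [DecidableEq G]

theorem parseval (h : G → ℂ) :
    ∑ χ : AddChar G ℂ, ‖∑ g, h g * χ g‖ ^ 2 = Fintype.card G * ∑ g, ‖h g‖ ^ 2 := by
  have key : ∑ χ : AddChar G ℂ, (∑ g, h g * χ g) * (starRingEnd ℂ) (∑ g, h g * χ g) =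
      Fintype.card G * ∑ g, h g * (starRingEnd ℂ) (h g) := by
    have h1 : ∀ χ : AddChar G ℂ, (∑ g, h g * χ g) * (starRingEnd ℂ) (∑ g, h g * χ g) =
        ∑ g, ∑ g', h g * (starRingEnd ℂ) (h g') * χ (g - g') := by
      intro χ
      rw [map_sum, sum_mul_sum]
      refine sum_congr rfl (fun g _ => sum_congr rfl (fun g' _ => ?_))
      rw [map_mul, ← AddChar.map_neg_eq_conj, sub_eq_add_neg, AddChar.map_add_eq_mul]
      ring
    simp_rw [h1]
    rw [sum_comm, mul_sum]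
    refine sum_congr rfl (fun g _ => ?_)
    rw [sum_comm]
    simp_rw [← mul_sum, AddChar.sum_apply_eq_ite, sub_eq_zero]
    simp [mul_comm]
  simp_rw [Complex.mul_conj, Complex.normSq_eq_norm_sq] at key
  exact_mod_cast key

theorem parseval_diff (h : G → ℂ) (μ : G) :
    ∑ χ : AddChar G ℂ, ‖1 - χ μ‖ ^ 2 * ‖∑ g, h g * χ g‖ ^ 2 =
      Fintype.card G * ∑ g, ‖h g - h (g + μ)‖ ^ 2 := by
  rw [← parseval]
  refine sum_congr rfl (fun χ _ => ?_)
  have h1 : ∑ g, h (g + μ) * χ g = χ (-μ) * ∑ g, h g * χ g := by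
    rw [mul_sum]
    refine Fintype.sum_equiv (Equiv.addRight μ) _ _ (fun g => ?_)
    have : χ g = χ (-μ) * χ (g + μ) := by rw [← AddChar.map_add_eq_mul]; congr 1; abel
    simp only [Equiv.coe_addRight]
    rw [this]; ring
  have h2 : ∑ g, (h g - h (g + μ)) * χ g = (1 - χ (-μ)) * ∑ g, h g * χ g := by
    simp_rw [sub_mul]
    rw [sum_sub_distrib, h1, one_mul]
  rw [h2, norm_mul, mul_pow, AddChar.map_neg_eq_conj]
  congr 2
  rw [← Complex.norm_conj]; simp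

theorem poincare_sq {ι : Type*} (I : Finset ι) (w : ι → ℝ) (μ : ι → G) (z : G) (C : ℝ)
    (hχ : ∀ χ : AddChar G ℂ, C * ‖1 - χ z‖ ^ 2 ≤ ∑ i ∈ I, w i * ‖1 - χ (μ i)‖ ^ 2) (h : G → ℂ) :
    C * ∑ g, ‖h g - h (g + z)‖ ^ 2 ≤ ∑ i ∈ I, w i * ∑ g, ‖h g - h (g + μ i)‖ ^ 2 := by
  have hc : (0 : ℝ) < Fintype.card G := by exact_mod_cast Fintype.card_pos
  refine le_of_mul_le_mul_left ?_ hc
  rw [mul_left_comm, ← parseval_diff, mul_sum, mul_sum]
  simp_rw [mul_left_comm (Fintype.card G : ℝ), ← parseval_diff, mul_sum]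
  rw [sum_comm]
  refine sum_le_sum (fun χ _ => ?_)
  simp_rw [← mul_assoc]
  rw [← sum_mul]
  exact mul_le_mul_of_nonneg_right (hχ χ) (sq_nonneg _)

theorem integral_cut (a b : ℝ) :
    Integrable (fun t : ℝ => ‖((if t < a then 1 else 0) - (if t < b then 1 else 0) : ℂ)‖ ^ 2) ∧
    ∫ t : ℝ, ‖((if t < a then 1 else 0) - (if t < b then 1 else 0) : ℂ)‖ ^ 2 = |a - b| := by
  have h : (fun t : ℝ => ‖((if t < a then 1 else 0) - (if t < b then 1 else 0) : ℂ)‖ ^ 2) =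
      (Set.Ico (min a b) (max a b)).indicator (fun _ => (1 : ℝ)) := by
    funext t
    by_cases h1 : t < a <;> by_cases h2 : t < b <;>
      simp [Set.indicator, h1, h2, not_lt.1, not_le.2]
  rw [h]
  refine ⟨(integrable_indicator_iff measurableSet_Ico).2 (by simp), ?_⟩
  rw [integral_indicator measurableSet_Ico]
  simp [max_sub_min_eq_abs, abs_sub_comm]

theorem poincare_abs {ι : Type*} (I : Finset ι) (w : ι → ℝ) (μ : ι → G) (z : G) (C : ℝ)
    (hχ : ∀ χ : AddChar G ℂ, C * ‖1 - χ z‖ ^ 2 ≤ ∑ i ∈ I, w i * ‖1 - χ (μ i)‖ ^ 2) (h : G → ℝ) :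
    C * ∑ g, |h g - h (g + z)| ≤ ∑ i ∈ I, w i * ∑ g, |h g - h (g + μ i)| := by
  let c : G → G → ℝ → ℝ := fun g g' t =>
    ‖((if t < h g then 1 else 0) - (if t < h g' then 1 else 0) : ℂ)‖ ^ 2
  have hint : ∀ ν : G, Integrable (fun t => ∑ g, c g (g + ν) t) := fun ν =>
    integrable_finsetSum _ (fun g _ => (integral_cut _ _).1)
  have hval : ∀ ν : G, ∑ g, |h g - h (g + ν)| = ∫ t, ∑ g, c g (g + ν) t := by
    intro ν
    rw [integral_finsetSum _ (fun g _ => (integral_cut _ _).1)]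
    exact sum_congr rfl (fun g _ => (integral_cut _ _).2.symm)
  simp_rw [hval, ← integral_const_mul]
  rw [← integral_finsetSum _ (fun i _ => (hint _).const_mul _)]
  refine integral_mono ((hint _).const_mul _)
    (integrable_finsetSum _ (fun i _ => (hint _).const_mul _)) (fun t => ?_)
  exact poincare_sq I w μ z C hχ (fun g => if t < h g then 1 else 0)

theorem poincare_l1 {ι : Type*} (I : Finset ι) (w : ι → ℝ) (μ : ι → G) (z : G) (C : ℝ)
    (hχ : ∀ χ : AddChar G ℂ, C * ‖1 - χ z‖ ^ 2 ≤ ∑ i ∈ I, w i * ‖1 - χ (μ i)‖ ^ 2)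
    (F : G → lp (fun _ : ℕ => ℝ) 1) :
    C * ∑ g, ‖F g - F (g + z)‖ ≤ ∑ i ∈ I, w i * ∑ g, ‖F g - F (g + μ i)‖ := by
  have hs : ∀ a b : G, HasSum (fun n => |F a n - F b n|) ‖F a - F b‖ := by
    intro a b
    have := lp.hasSum_norm (p := 1) (by simp) (F a - F b)
    simpa using this
  refine hasSum_le (fun n => poincare_abs I w μ z C hχ (fun g => F g n))
    ((hasSum_sum (fun g _ => hs g (g + z))).mul_left C)
    (hasSum_sum (fun i _ => (hasSum_sum (fun g _ => hs g (g + μ i))).mul_left (w i)))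

theorem norm_one_sub_pow_le (τ : ℂ) (hτ : ‖τ‖ = 1) (j : ℕ) : ‖1 - τ ^ j‖ ≤ j * ‖1 - τ‖ := by
  induction j with
  | zero => simp
  | succ j ih =>
    have : 1 - τ ^ (j + 1) = (1 - τ) + τ * (1 - τ ^ j) := by ring
    rw [this]
    refine (norm_add_le _ _).trans ?_
    rw [norm_mul, hτ]; push_cast; linarith

/-- A root of unity of small order different from `1` is far from `1`. -/
theorem one_le_mul_norm_one_sub (τ : ℂ) (hτ : ‖τ‖ = 1) (E : ℕ) (hE : 0 < E) (h1 : τ ^ E = 1)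
    (hne : τ ≠ 1) : 1 ≤ E * ‖1 - τ‖ := by
  have hsum : ∑ j ∈ range E, τ ^ j = 0 := by
    have := mul_geom_sum τ E
    rw [h1, sub_self] at this
    exact (mul_eq_zero.1 this).resolve_left (sub_ne_zero.2 hne)
  have h2 : (E : ℂ) = ∑ j ∈ range E, (1 - τ ^ j) := by
    rw [sum_sub_distrib, hsum]; simp
  have h3 : (E : ℝ) ≤ ∑ j ∈ range E, (E : ℝ) * ‖1 - τ‖ := by
    calc (E : ℝ) = ‖(E : ℂ)‖ := by simp
      _ ≤ ∑ j ∈ range E, ‖1 - τ ^ j‖ := by rw [h2]; exact norm_sum_le _ _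
      _ ≤ _ := sum_le_sum (fun j hj => (norm_one_sub_pow_le τ hτ j).trans
          (mul_le_mul_of_nonneg_right (by exact_mod_cast (mem_range.1 hj).le) (norm_nonneg _)))
  rw [sum_const, card_range, nsmul_eq_mul] at h3
  have hE' : (0 : ℝ) < E := by exact_mod_cast hE
  exact le_of_mul_le_mul_left (by linarith) hE'

theorem sum_norm_one_sub_sq {A : Type*} [AddCommGroup A] [Fintype A] (ψ : AddChar A ℂ)
    (hψ : ψ ≠ 0) : ∑ a, ‖1 - ψ a‖ ^ 2 = 2 * Fintype.card A := by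
  have h0 := AddChar.sum_eq_zero_iff_ne_zero.2 hψ
  have h1 : ∀ a, ‖1 - ψ a‖ ^ 2 = 2 - 2 * (ψ a).re := by
    intro a
    have h2 : ‖ψ a‖ ^ 2 = 1 := by rw [AddChar.norm_apply]; norm_num
    rw [← Complex.normSq_eq_norm_sq, Complex.normSq_apply] at h2 ⊢
    simp only [Complex.sub_re, Complex.one_re, Complex.sub_im, Complex.one_im]
    linarith
  simp_rw [h1]
  rw [sum_sub_distrib, ← mul_sum, ← Complex.re_sum, h0]
  simp [mul_comm]

end Crest.Agent.R210
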