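import Crest.Agent.R210.Poincare

/-!
The tree of moduli, the moves, and the inequality for the characters.
-/

set_option autoImplicit false

namespace Crest.Agent.R210

open Finset

variable {K r : ℕ} (q : Fin K → Fin r → ℕ)

/-- Product of all the moduli of the levels below `t`. -/
def PP (t : ℕ) : ℕ := ∏ i ∈ univ.filter (fun i : Fin K => (i : ℕ) < t), ∏ c, q i c

/-- Modulus of the node of height `t` above the leaf `ℓ`. -/
def up (t : ℕ) (ℓ : Fin K → Fin r) : ℕ :=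
  2 * ∏ i ∈ univ.filter (fun i : Fin K => t ≤ (i : ℕ)), q i (ℓ i)

/-- Modulus of a leaf. -/
def MM (ℓ : Fin K → Fin r) : ℕ := 2 * ∏ i, q i (ℓ i)

/-- `ℓ` lies below the node of height `t` above `ℓ₀`. -/
def Below (t : ℕ) (ℓ₀ ℓ : Fin K → Fin r) : Prop := ∀ i : Fin K, t ≤ (i : ℕ) → ℓ i = ℓ₀ i

instance (t : ℕ) (ℓ₀ ℓ : Fin K → Fin r) : Decidable (Below t ℓ₀ ℓ) := by
  unfold Below; infer_instance

/-- The leftmost leaf below a node of height `i + 1`. -/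
def Canon (c₀ : Fin r) (i : Fin K) (ℓ : Fin K → Fin r) : Prop := ∀ j : Fin K, j ≤ i → ℓ j = c₀

instance (c₀ : Fin r) (i : Fin K) (ℓ : Fin K → Fin r) : Decidable (Canon c₀ i ℓ) := by
  unfold Canon; infer_instance

/-- The state space. -/
abbrev St : Type := (ℓ : Fin K → Fin r) → ZMod (MM q ℓ)

/-- Adding `a` at all the leaves below a node. -/
def mv (t a : ℕ) (ℓ₀ : Fin K → Fin r) : St q := fun ℓ => if Below t ℓ₀ ℓ then (a : ZMod _) else 0

theorem PP_succ (t : Fin K) : PP q (t + 1) = PP q t * ∏ c, q t c := by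
  unfold PP
  have : univ.filter (fun i : Fin K => (i : ℕ) < t + 1) =
      insert t (univ.filter (fun i : Fin K => (i : ℕ) < t)) := by
    ext i; simp [Fin.ext_iff]; omega
  rw [this, prod_insert (by simp), mul_comm]

theorem up_update (t : Fin K) (ℓ₀ : Fin K → Fin r) (c : Fin r) :
    up q t (Function.update ℓ₀ t c) = q t c * up q (t + 1) ℓ₀ := by
  unfold up
  have : univ.filter (fun i : Fin K => (t : ℕ) ≤ i) =
      insert t (univ.filter (fun i : Fin K => (t : ℕ) + 1 ≤ i)) := by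
    ext i; simp [Fin.ext_iff]; omega
  rw [this, prod_insert (by simp), Function.update_self, mul_left_comm]
  congr 2
  refine prod_congr rfl (fun i hi => ?_)
  have : i ≠ t := by
    rintro rfl
    simp at hi
  rw [Function.update_of_ne this]

theorem MM_dvd (t : ℕ) {ℓ₀ ℓ : Fin K → Fin r} (h : Below t ℓ₀ ℓ) :
    MM q ℓ ∣ PP q t * up q t ℓ₀ := by
  unfold MM PP up
  rw [mul_left_comm]
  refine Nat.mul_dvd_mul_left _ ?_
  rw [← prod_filter_mul_prod_filter_not univ (fun i : Fin K => (i : ℕ) < t)]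
  refine Nat.mul_dvd_mul (prod_dvd_prod_of_dvd _ _ (fun i _ => dvd_prod_of_mem _ (mem_univ _))) ?_
  refine dvd_of_eq (prod_congr (by ext i; simp) (fun i hi => ?_))
  rw [h i (by simpa using hi)]

theorem up_le (Y : ℕ) (hY : 1 ≤ Y) (hq : ∀ i c, q i c ≤ Y) (t : ℕ) (ℓ : Fin K → Fin r) :
    up q t ℓ ≤ 2 * Y ^ K := by
  unfold up
  refine Nat.mul_le_mul_left _ ((prod_le_pow_card _ _ Y (fun i _ => hq i _)).trans ?_)
  refine Nat.pow_le_pow_right hY ?_
  simpa using card_le_univ (univ.filter (fun i : Fin K => t ≤ (i : ℕ)))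

theorem below_update (t : Fin K) (ℓ₀ ℓ : Fin K → Fin r) (c : Fin r) :
    Below t (Function.update ℓ₀ t c) ℓ ↔ Below (t + 1) ℓ₀ ℓ ∧ c = ℓ t := by
  constructor
  · intro h
    refine ⟨fun i hi => ?_, ?_⟩
    · have hne : i ≠ t := by rintro rfl; omega
      rw [h i (by omega), Function.update_of_ne hne]
    · rw [h t le_rfl, Function.update_self]
  · rintro ⟨h, rfl⟩ i hi
    by_cases hit : i = t
    · rw [hit, Function.update_self]
    · rw [Function.update_of_ne hit]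
      exact h i (by have : (i : ℕ) ≠ t := fun h => hit (Fin.ext h); omega)

theorem ite_below_succ {A : Type*} [AddCommMonoid A] (t : Fin K) (ℓ₀ ℓ : Fin K → Fin r) (x : A) :
    (if Below (t + 1) ℓ₀ ℓ then x else 0) =
      ∑ c, if Below t (Function.update ℓ₀ t c) ℓ then x else 0 := by
  simp_rw [below_update]
  by_cases h : Below (t + 1) ℓ₀ ℓ <;> simp [h]

theorem mv_succ (t : Fin K) (a : ℕ) (ℓ₀ : Fin K → Fin r) :
    mv q (t + 1) a ℓ₀ = ∑ c, mv q t a (Function.update ℓ₀ t c) := by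
  funext ℓ
  rw [Finset.sum_apply]
  exact ite_below_succ t ℓ₀ ℓ _

theorem mv_mul (t a b : ℕ) (ℓ₀ : Fin K → Fin r) : mv q t (a * b) ℓ₀ = b • mv q t a ℓ₀ := by
  funext ℓ
  simp only [mv, Pi.smul_apply]
  split_ifs <;> simp [mul_comm]

theorem mv_up (t : ℕ) (ℓ₀ : Fin K → Fin r) : up q t ℓ₀ • mv q t (PP q t) ℓ₀ = 0 := by
  rw [← mv_mul]
  funext ℓ
  simp only [mv, Pi.zero_apply]
  split_ifs with h
  · exact (ZMod.natCast_eq_zero_iff _ _).2 (MM_dvd q t h)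
  · rfl

theorem mv_congr (t a : ℕ) {ℓ₀ ℓ₁ : Fin K → Fin r} (h : Below t ℓ₀ ℓ₁) :
    mv q t a ℓ₁ = mv q t a ℓ₀ := by
  funext ℓ
  have : Below t ℓ₁ ℓ ↔ Below t ℓ₀ ℓ :=
    ⟨fun h' i hi => (h' i hi).trans (h i hi), fun h' i hi => (h' i hi).trans (h i hi).symm⟩
  simp only [mv, this]

theorem addChar_map_sum {G ι : Type*} [AddCommGroup G] (χ : AddChar G ℂ) (s : Finset ι)
    (f : ι → G) : χ (∑ i ∈ s, f i) = ∏ i ∈ s, χ (f i) := by
  classical
  induction s using Finset.induction_on with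
  | empty => simp
  | insert a s ha ih => rw [sum_insert ha, prod_insert ha, AddChar.map_add_eq_mul, ih]

variable [∀ ℓ, NeZero (MM q ℓ)]

/-- The cost of a character charged to a leaf, counting the levels below `t`. -/
noncomputable def charge (c₀ : Fin r) (R : ℝ) (χ : AddChar (St q) ℂ) (t : ℕ)
    (ℓ : Fin K → Fin r) : ℝ :=
  ∑ c : ZMod (MM q ℓ), (1 / (MM q ℓ : ℝ)) * ‖1 - χ (Pi.single ℓ c)‖ ^ 2 +
    ∑ i : Fin K, (if (i : ℕ) < t ∧ Canon c₀ i ℓ then R else 0) *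
      ‖1 - χ (mv q (i + 1) (PP q i) ℓ)‖ ^ 2

theorem charge_nonneg (c₀ : Fin r) (R : ℝ) (hR : 0 ≤ R) (χ : AddChar (St q) ℂ) (t : ℕ)
    (ℓ : Fin K → Fin r) : 0 ≤ charge q c₀ R χ t ℓ := by
  unfold charge
  refine add_nonneg (sum_nonneg (fun _ _ => by positivity)) (sum_nonneg (fun _ _ => ?_))
  split_ifs <;> positivity

theorem charge_mono (c₀ : Fin r) (R : ℝ) (hR : 0 ≤ R) (χ : AddChar (St q) ℂ) (t : ℕ)
    (ℓ : Fin K → Fin r) : charge q c₀ R χ t ℓ ≤ charge q c₀ R χ (t + 1) ℓ := by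
  unfold charge
  refine add_le_add le_rfl (sum_le_sum (fun i _ => mul_le_mul_of_nonneg_right ?_ (sq_nonneg _)))
  by_cases h : (i : ℕ) < t ∧ Canon c₀ i ℓ
  · rw [if_pos h, if_pos ⟨by omega, h.2⟩]
  · rw [if_neg h]; split_ifs <;> linarith

theorem cost_ge (c₀ : Fin r) (R : ℝ) (Y r₀ : ℕ) (hY : 1 ≤ Y) (hr₀ : 1 ≤ r₀)
    (hq0 : ∀ i c, 0 < q i c) (hq : ∀ i c, q i c ≤ Y)
    (hR : (r₀ : ℝ) ^ K * ((2 * Y ^ K * Y ^ r₀ : ℕ) : ℝ) ^ 2 ≤ R) (χ : AddChar (St q) ℂ) :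
    ∀ t : ℕ, t ≤ K → ∀ ℓ₀, χ (mv q t (PP q t) ℓ₀) ≠ 1 →
      (r₀ : ℝ) ^ t ≤ ∑ ℓ, if Below t ℓ₀ ℓ then charge q c₀ R χ t ℓ else 0 := by
  have hR0 : 0 ≤ R := le_trans (by positivity) hR
  have hnn : ∀ t ℓ₀ ℓ, 0 ≤ if Below t ℓ₀ ℓ then charge q c₀ R χ t ℓ else 0 := by
    intro t ℓ₀ ℓ
    split_ifs
    · exact charge_nonneg q c₀ R hR0 χ t ℓ
    · exact le_rfl
  intro t
  induction t with
  | zero =>
    intro _ ℓ₀ hne
    refine le_trans ?_ (single_le_sum (f := fun ℓ => if Below 0 ℓ₀ ℓ then charge q c₀ R χ 0 ℓ else 0)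
      (fun ℓ _ => hnn 0 ℓ₀ ℓ) (mem_univ ℓ₀))
    have hb : Below 0 ℓ₀ ℓ₀ := fun _ _ => rfl
    simp only [hb, if_true, pow_zero]
    let ψ : AddChar (ZMod (MM q ℓ₀)) ℂ :=
      χ.compAddMonoidHom (AddMonoidHom.single (fun ℓ => ZMod (MM q ℓ)) ℓ₀)
    have hψ : ψ ≠ 0 := by
      intro h
      apply hne
      have h1 : mv q 0 (PP q 0) ℓ₀ = Pi.single ℓ₀ (PP q 0 : ZMod (MM q ℓ₀)) := by
        funext ℓ
        by_cases hl : ℓ = ℓ₀
        · subst hl; simp [mv, hb]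
        · have : ¬ Below 0 ℓ₀ ℓ := fun h => hl (funext (fun i => h i (Nat.zero_le _)))
          simp [mv, this, Pi.single_eq_of_ne hl]
      rw [h1]
      exact DFunLike.congr_fun h (PP q 0 : ZMod (MM q ℓ₀))
    have h2 := sum_norm_one_sub_sq ψ hψ
    rw [ZMod.card] at h2
    have hM : (0 : ℝ) < MM q ℓ₀ := by exact_mod_cast Nat.pos_of_ne_zero (NeZero.ne _)
    unfold charge
    rw [← mul_sum]
    have h3 : ∑ c : ZMod (MM q ℓ₀), ‖1 - χ (Pi.single ℓ₀ c)‖ ^ 2 = 2 * MM q ℓ₀ := h2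
    rw [h3]
    have h4 : 1 / (MM q ℓ₀ : ℝ) * (2 * MM q ℓ₀) = 2 := by field_simp
    rw [h4]
    simp
  | succ t ih =>
    intro ht ℓ₀ hne
    let t' : Fin K := ⟨t, ht⟩
    have hτ : χ (mv q (t + 1) (PP q t) ℓ₀) ≠ 1 := by
      intro h
      apply hne
      rw [show PP q (t + 1) = _ from PP_succ q t', mv_mul, AddChar.map_nsmul_eq_pow]
      simp only [t']
      rw [h, one_pow]
    let S := univ.filter (fun c : Fin r => χ (mv q t (PP q t) (Function.update ℓ₀ t' c)) ≠ 1)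
    by_cases hS : r₀ ≤ S.card
    · calc (r₀ : ℝ) ^ (t + 1) ≤ ∑ _c ∈ S, (r₀ : ℝ) ^ t := by
            rw [sum_const, nsmul_eq_mul, pow_succ, mul_comm]
            exact mul_le_mul_of_nonneg_right (by exact_mod_cast hS) (by positivity)
        _ ≤ ∑ c ∈ S, ∑ ℓ, (if Below t (Function.update ℓ₀ t' c) ℓ then
              charge q c₀ R χ t ℓ else 0) :=
            sum_le_sum (fun c hc => ih (by omega) _ (mem_filter.1 hc).2)
        _ ≤ ∑ c, ∑ ℓ, (if Below t (Function.update ℓ₀ t' c) ℓ then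
              charge q c₀ R χ t ℓ else 0) :=
            sum_le_sum_of_subset_of_nonneg (subset_univ _)
              (fun c _ _ => sum_nonneg (fun ℓ _ => hnn _ _ _))
        _ = ∑ ℓ, (if Below (t + 1) ℓ₀ ℓ then charge q c₀ R χ t ℓ else 0) := by
            rw [sum_comm]
            exact sum_congr rfl (fun ℓ _ => (ite_below_succ t' ℓ₀ ℓ _).symm)
        _ ≤ _ := sum_le_sum (fun ℓ _ => by
            split_ifs
            · exact charge_mono q c₀ R hR0 χ t ℓ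
            · exact le_rfl)
    · set τ := χ (mv q (t + 1) (PP q t) ℓ₀) with hτdef
      let E := up q (t + 1) ℓ₀ * ∏ c ∈ S, q t' c
      have hE0 : 0 < E := by
        refine Nat.mul_pos ?_ (prod_pos (fun c _ => hq0 _ _))
        exact Nat.mul_pos (by norm_num) (prod_pos (fun c _ => hq0 _ _))
      have hEle : E ≤ 2 * Y ^ K * Y ^ r₀ :=
        Nat.mul_le_mul (up_le q Y hY hq _ _) ((prod_le_pow_card _ _ Y (fun c _ => hq _ c)).trans
          (Nat.pow_le_pow_right hY (by omega)))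
      have hτE : τ ^ E = 1 := by
        rw [hτdef, show mv q (t + 1) (PP q t) ℓ₀ = _ from mv_succ q t' _ ℓ₀, addChar_map_sum,
          ← prod_pow]
        refine prod_eq_one (fun c _ => ?_)
        by_cases hc : c ∈ S
        · have h1 : up q t (Function.update ℓ₀ t' c) ∣ E := by
            rw [show up q t (Function.update ℓ₀ t' c) = _ from up_update q t' ℓ₀ c, mul_comm]
            exact Nat.mul_dvd_mul_left _ (dvd_prod_of_mem _ hc)
          obtain ⟨e, he⟩ := h1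
          rw [he, pow_mul, ← AddChar.map_nsmul_eq_pow, mv_up, AddChar.map_zero_eq_one, one_pow]
        · have : χ (mv q t (PP q t) (Function.update ℓ₀ t' c)) = 1 := by
            simpa [S] using hc
          rw [show χ (mv q t' (PP q t) (Function.update ℓ₀ t' c)) = 1 from this, one_pow]
      have h1 := one_le_mul_norm_one_sub τ (AddChar.norm_apply _ _) E hE0 hτE hτ
      have h2 : (r₀ : ℝ) ^ (t + 1) ≤ R * ‖1 - τ‖ ^ 2 := by
        have h3 : (E : ℝ) ≤ ((2 * Y ^ K * Y ^ r₀ : ℕ) : ℝ) := by exact_mod_cast hEle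
        have h4 : 1 ≤ ((2 * Y ^ K * Y ^ r₀ : ℕ) : ℝ) * ‖1 - τ‖ :=
          h1.trans (mul_le_mul_of_nonneg_right h3 (norm_nonneg _))
        have h5 : (r₀ : ℝ) ^ (t + 1) ≤ (r₀ : ℝ) ^ K :=
          pow_le_pow_right₀ (by exact_mod_cast hr₀) ht
        calc (r₀ : ℝ) ^ (t + 1) ≤ (r₀ : ℝ) ^ K * 1 := by linarith
          _ ≤ (r₀ : ℝ) ^ K * (((2 * Y ^ K * Y ^ r₀ : ℕ) : ℝ) * ‖1 - τ‖) ^ 2 :=
              mul_le_mul_of_nonneg_left (one_le_pow₀ h4) (by positivity)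
          _ = (r₀ : ℝ) ^ K * ((2 * Y ^ K * Y ^ r₀ : ℕ) : ℝ) ^ 2 * ‖1 - τ‖ ^ 2 := by ring
          _ ≤ _ := mul_le_mul_of_nonneg_right hR (sq_nonneg _)
      let ℓ₁ : Fin K → Fin r := fun i => if t + 1 ≤ (i : ℕ) then ℓ₀ i else c₀
      have hb : Below (t + 1) ℓ₀ ℓ₁ := fun i hi => if_pos hi
      have hc : Canon c₀ t' ℓ₁ := fun j hj => by
        have : ¬ t + 1 ≤ (j : ℕ) := by
          have : (j : ℕ) ≤ t := hj
          omega
        exact if_neg this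
      refine h2.trans (le_trans ?_ (single_le_sum
        (f := fun ℓ => if Below (t + 1) ℓ₀ ℓ then charge q c₀ R χ (t + 1) ℓ else 0)
        (fun ℓ _ => hnn _ ℓ₀ ℓ) (mem_univ ℓ₁)))
      simp only [hb, if_true]
      unfold charge
      refine le_add_of_nonneg_of_le (sum_nonneg (fun _ _ => by positivity)) ?_
      refine le_trans ?_ (single_le_sum (f := fun i : Fin K =>
        (if (i : ℕ) < t + 1 ∧ Canon c₀ i ℓ₁ then R else 0) *
          ‖1 - χ (mv q (i + 1) (PP q i) ℓ₁)‖ ^ 2) (fun i _ => by split_ifs <;> positivity)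
        (mem_univ t'))
      rw [if_pos ⟨by simp [t'], hc⟩, mv_congr q _ _ hb]

/-- The Poincaré inequality for the tree of moves. -/
theorem tree_poincare (c₀ : Fin r) (R : ℝ) (Y r₀ : ℕ) (hY : 1 ≤ Y) (hr₀ : 1 ≤ r₀)
    (hq0 : ∀ i c, 0 < q i c) (hq : ∀ i c, q i c ≤ Y)
    (hR : (r₀ : ℝ) ^ K * ((2 * Y ^ K * Y ^ r₀ : ℕ) : ℝ) ^ 2 ≤ R)
    (F : St q → lp (fun _ : ℕ => ℝ) 1) :
    (r₀ : ℝ) ^ K / 4 * ∑ g, ‖F g - F (g + fun _ => (PP q K : ZMod _))‖ ≤
      ∑ ℓ, ∑ c : ZMod (MM q ℓ), (1 / (MM q ℓ : ℝ)) * ∑ g, ‖F g - F (g + Pi.single ℓ c)‖ +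
      ∑ ℓ, ∑ i : Fin K, (if Canon c₀ i ℓ then R else 0) *
        ∑ g, ‖F g - F (g + mv q (i + 1) (PP q i) ℓ)‖ := by
  classical
  have hR0 : 0 ≤ R := le_trans (by positivity) hR
  have := poincare_l1 (ι := (Σ ℓ : Fin K → Fin r, ZMod (MM q ℓ)) ⊕ ((Fin K → Fin r) × Fin K))
    univ (Sum.elim (fun x => 1 / (MM q x.1 : ℝ)) (fun x => if Canon c₀ x.2 x.1 then R else 0))
    (Sum.elim (fun x => Pi.single x.1 x.2) (fun x => mv q (x.2 + 1) (PP q x.2) x.1))
    (fun _ => (PP q K : ZMod _)) ((r₀ : ℝ) ^ K / 4) ?_ F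
  · simpa only [Fintype.sum_sum_type, Fintype.sum_sigma, Fintype.sum_prod_type, Sum.elim_inl,
      Sum.elim_inr] using this
  · intro χ
    simp only [Fintype.sum_sum_type, Fintype.sum_sigma, Fintype.sum_prod_type, Sum.elim_inl,
      Sum.elim_inr]
    rw [← sum_add_distrib]
    have hb : ∀ ℓ : Fin K → Fin r, Below K (fun _ => c₀) ℓ := fun ℓ i hi => by
      have := i.2; omega
    have hz : (fun _ => (PP q K : ZMod _) : St q) = mv q K (PP q K) (fun _ => c₀) := by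
      funext ℓ; simp [mv, hb]
    have hsum : ∀ ℓ, (∑ c : ZMod (MM q ℓ), (1 / (MM q ℓ : ℝ)) * ‖1 - χ (Pi.single ℓ c)‖ ^ 2 +
        ∑ i : Fin K, (if Canon c₀ i ℓ then R else 0) * ‖1 - χ (mv q (i + 1) (PP q i) ℓ)‖ ^ 2) =
        charge q c₀ R χ K ℓ := by
      intro ℓ
      simp [charge]
    simp_rw [hsum]
    by_cases hne : χ (mv q K (PP q K) (fun _ => c₀)) = 1
    · rw [hz, hne]
      simpa using sum_nonneg (fun ℓ _ => charge_nonneg q c₀ R hR0 χ K ℓ)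
    · have h1 := cost_ge q c₀ R Y r₀ hY hr₀ hq0 hq hR χ K le_rfl _ hne
      simp only [hb, if_true] at h1
      refine le_trans ?_ h1
      have h2 : ‖1 - χ (fun _ => (PP q K : ZMod _))‖ ≤ 2 := by
        refine (norm_sub_le _ _).trans ?_
        rw [AddChar.norm_apply]; norm_num
      have h3 : ‖1 - χ (fun _ => (PP q K : ZMod _))‖ ^ 2 ≤ 4 := by
        nlinarith [norm_nonneg (1 - χ (fun _ => (PP q K : ZMod _)))]
      have h4 : (0 : ℝ) ≤ (r₀ : ℝ) ^ K / 4 := by positivity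
      nlinarith

end Crest.Agent.R210
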