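import Crest.Agent.R210.Tree
import Crest.Agent.R210.Edit

/-!
The words attached to the states, and the edit distances along the moves.
-/

set_option autoImplicit false

namespace Crest.Agent.R210

open Finset Crest.GeometryTopology.EditDistance

variable {K r : ℕ} [NeZero r] (q : Fin K → Fin r → ℕ) (R : ℕ)

/-- Row digit of the position `p` at level `i`. -/
def jj (R r p i : ℕ) : ℕ := p / ((R * r) ^ i * r) % R

/-- The leaf of the position `p`. -/
def leaf (K r : ℕ) [NeZero r] (R p : ℕ) : Fin K → Fin r :=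
  fun i => ⟨p / (R * r) ^ (i : ℕ) % r, Nat.mod_lt _ (Nat.pos_of_ne_zero (NeZero.ne r))⟩

/-- The offset of the position `p`. -/
def off (p : ℕ) : ℕ := ∑ i : Fin K, jj R r p i * PP q i

/-- The alphabet. -/
abbrev Alph : Type := Σ ℓ : Fin K → Fin r, ZMod (MM q ℓ)

/-- A symbol. -/
def tok (θ : St q) (ℓ : Fin K → Fin r) (n : ℕ) : Alph q := ⟨ℓ, θ ℓ + n⟩

/-- The symbol at the position `p`. -/
def sym (θ : St q) (p : Fin ((R * r) ^ K)) : Alph q := tok q θ (leaf K r R p) (off q R p)

omit [NeZero r] in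
theorem tok_inj {θ θ' : St q} {ℓ ℓ' : Fin K → Fin r} {n n' : ℕ}
    (h : tok q θ ℓ n = tok q θ' ℓ' n') : ℓ = ℓ' ∧ θ ℓ + n = θ' ℓ + n' := by
  obtain ⟨h1, h2⟩ := Sigma.mk.inj_iff.1 h
  subst h1
  exact ⟨rfl, eq_of_heq h2⟩

theorem div_pow_succ (R r p i : ℕ) : p / (R * r) ^ (i + 1) = p / ((R * r) ^ i * r) / R := by
  rw [Nat.div_div_eq_div_mul]; congr 1; ring

theorem div_of_lt {B p p' i i' : ℕ} (m : ℕ) (h : p / B ^ (i + 1) = p' / B ^ (i + 1))
    (hi : i < i') : p / (B ^ i' * m) = p' / (B ^ i' * m) := by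
  obtain ⟨d, rfl⟩ := Nat.exists_eq_add_of_lt hi
  have : B ^ (i + d + 1) * m = B ^ (i + 1) * (B ^ d * m) := by ring
  rw [this, ← Nat.div_div_eq_div_mul, ← Nat.div_div_eq_div_mul p', h]

theorem shift_div {R r p i : ℕ} (hr : 0 < r) (h : jj R r p i + 1 < R) :
    (p + (R * r) ^ i * r) / (R * r) ^ (i + 1) = p / (R * r) ^ (i + 1) := by
  have hR : 0 < R := by omega
  have hh : 0 < (R * r) ^ i * r := by positivity
  rw [div_pow_succ, div_pow_succ, Nat.add_div_right _ hh, Nat.succ_div_of_not_dvd]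
  intro hd
  unfold jj at h
  have h1 := Nat.add_mod (p / ((R * r) ^ i * r)) 1 R
  rw [Nat.mod_eq_zero_of_dvd hd, Nat.mod_eq_of_lt (by omega : 1 < R), Nat.mod_eq_of_lt h] at h1
  omega

theorem leaf_of_div_eq {p p' : ℕ} {i : ℕ} (h : p / (R * r) ^ (i + 1) = p' / (R * r) ^ (i + 1))
    (j : Fin K) (hj : i + 1 ≤ (j : ℕ)) : leaf K r R p j = leaf K r R p' j := by
  have := div_of_lt 1 h hj
  rw [mul_one] at this
  simp only [leaf, this]

theorem shift_leaf {p i : ℕ} (h : jj R r p i + 1 < R) :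
    leaf K r R (p + (R * r) ^ i * r) = leaf K r R p := by
  have hr : 0 < r := Nat.pos_of_ne_zero (NeZero.ne r)
  have hR : 0 < R := by omega
  funext j
  rcases lt_or_ge i j with hij | hij
  · exact leaf_of_div_eq R (shift_div hr h) j hij
  · obtain ⟨d, rfl⟩ := Nat.exists_eq_add_of_le hij
    have : (R * r) ^ ((j : ℕ) + d) * r = (R * r) ^ (j : ℕ) * (r * (R * r) ^ d) := by ring
    simp only [leaf, Fin.mk.injEq]
    rw [this, Nat.add_mul_div_left _ _ (by positivity), Nat.add_mul_mod_self_left]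

theorem shift_jj {R r p i : ℕ} (hr : 0 < r) (h : jj R r p i + 1 < R) (j : ℕ) :
    jj R r (p + (R * r) ^ i * r) j = jj R r p j + if j = i then 1 else 0 := by
  have hR : 0 < R := by omega
  rcases lt_trichotomy i j with hij | rfl | hij
  · rw [if_neg hij.ne', add_zero]
    unfold jj
    rw [div_of_lt r (shift_div hr h) hij]
  · rw [if_pos rfl]
    unfold jj at h ⊢
    rw [Nat.add_div_right _ (by positivity), Nat.add_mod, Nat.mod_eq_of_lt (by omega : 1 < R),
      Nat.mod_eq_of_lt h]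
  · rw [if_neg hij.ne, add_zero]
    obtain ⟨d, rfl⟩ := Nat.exists_eq_add_of_lt hij
    have : (R * r) ^ (j + d + 1) * r = (R * r) ^ j * r * (R * (r * (R * r) ^ d)) := by ring
    unfold jj
    rw [this, Nat.add_mul_div_left _ _ (by positivity), Nat.add_mul_mod_self_left]

theorem shift_off {p : ℕ} {i : Fin K} (h : jj R r p i + 1 < R) :
    off q R (p + (R * r) ^ (i : ℕ) * r) = off q R p + PP q i := by
  have hr : 0 < r := Nat.pos_of_ne_zero (NeZero.ne r)
  unfold off
  simp_rw [shift_jj hr h, add_mul, sum_add_distrib, ← Fin.ext_iff]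
  simp

theorem lt_of_div_eq {B p p' i K : ℕ} (hB : 0 < B) (hi : i < K) (hp : p < B ^ K)
    (h : p' / B ^ (i + 1) = p / B ^ (i + 1)) : p' < B ^ K := by
  obtain ⟨d, rfl⟩ := Nat.exists_eq_add_of_lt hi
  have h1 : B ^ (i + d + 1) = B ^ d * B ^ (i + 1) := by ring
  rw [h1] at hp ⊢
  rw [← Nat.div_lt_iff_lt_mul (by positivity)] at hp ⊢
  omega

variable {α : Type*} {e : Alph q → List α} {L : ℕ}

theorem editDist_shift (he : CommaFree e L) (θ : St q) (i : Fin K) (ℓ₀ : Fin K → Fin r) :
    editDist ((List.ofFn (sym q R θ)).flatMap e)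
      ((List.ofFn (sym q R (θ + mv q (i + 1) (PP q i) ℓ₀))).flatMap e) ≤
      2 * (univ.filter (fun p : Fin ((R * r) ^ K) =>
        Below (i + 1) ℓ₀ (leaf K r R p) ∧ ¬ jj R r p i + 1 < R)).card * L := by
  have hr : 0 < r := Nat.pos_of_ne_zero (NeZero.ne r)
  let φ : Fin ((R * r) ^ K) → Fin ((R * r) ^ K) := fun p =>
    if h : Below (i + 1) ℓ₀ (leaf K r R p) ∧ jj R r p i + 1 < R then
      ⟨p + (R * r) ^ (i : ℕ) * r, lt_of_div_eq (Nat.mul_pos (by omega) hr) i.2 p.2
        (shift_div hr h.2)⟩ else p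
  refine he.editDist_le_of_matching _ _ _ φ ?_ ?_
  · intro p p' hp hp' hpp
    simp only [mem_filter, mem_univ, true_and, not_and, not_not] at hp hp'
    have hpp' : (p : ℕ) < p' := hpp
    by_cases h1 : Below (i + 1) ℓ₀ (leaf K r R p) <;> by_cases h2 : Below (i + 1) ℓ₀ (leaf K r R p')
    · simp only [φ, h1, h2, hp h1, hp' h2, and_self, dif_pos, Fin.mk_lt_mk]
      omega
    · simp only [φ, h1, h2, hp h1, and_self, dif_pos, false_and, dif_neg, not_false_eq_true]
      change (p : ℕ) + (R * r) ^ (i : ℕ) * r < p'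
      have h3 : (p : ℕ) / (R * r) ^ ((i : ℕ) + 1) ≠ p' / (R * r) ^ ((i : ℕ) + 1) := by
        intro h
        exact h2 (fun j hj => (leaf_of_div_eq R h j hj).symm.trans (h1 j hj))
      have h4 : (p : ℕ) / (R * r) ^ ((i : ℕ) + 1) ≤ p' / (R * r) ^ ((i : ℕ) + 1) :=
        Nat.div_le_div_right hpp'.le
      refine Nat.lt_of_div_lt_div (c := (R * r) ^ ((i : ℕ) + 1)) ?_
      rw [shift_div hr (hp h1)]
      omega
    · simp only [φ, h1, h2, hp' h2, and_self, dif_pos, false_and, dif_neg, not_false_eq_true]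
      change (p : ℕ) < p' + (R * r) ^ (i : ℕ) * r
      omega
    · simp only [φ, h1, h2, false_and, dif_neg, not_false_eq_true]
      exact hpp
  · intro p hp
    simp only [mem_filter, mem_univ, true_and, not_and, not_not] at hp
    by_cases h1 : Below (i + 1) ℓ₀ (leaf K r R p)
    · simp only [φ, h1, hp h1, and_self, dif_pos, sym]
      rw [shift_leaf R (hp h1), shift_off q R (hp h1)]
      simp only [tok, mv, Pi.add_apply, h1, if_true]
      congr 1
      push_cast; ring
    · have h2 : φ p = p := dif_neg (fun h => h1 h.1)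
      rw [h2]
      simp only [sym, tok, mv, Pi.add_apply, h1, if_false, add_zero]

theorem editDist_single (he : CommaFree e L) (θ : St q) (ℓ : Fin K → Fin r) (c : ZMod (MM q ℓ)) :
    editDist ((List.ofFn (sym q R θ)).flatMap e)
      ((List.ofFn (sym q R (θ + Pi.single ℓ c))).flatMap e) ≤
      2 * (univ.filter (fun p : Fin ((R * r) ^ K) => leaf K r R p = ℓ)).card * L := by
  refine he.editDist_le_of_matching _ _ _ id (fun _ _ _ _ h => h) ?_
  intro p hp
  simp only [mem_filter, mem_univ, true_and] at hp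
  simp only [sym, tok, id, Pi.add_apply, Pi.single_eq_of_ne hp, add_zero]

theorem card_last_row (hR : 0 < R) (i : Fin K) :
    R * (univ.filter (fun p : Fin ((R * r) ^ K) => ¬ jj R r p i + 1 < R)).card ≤ (R * r) ^ K := by
  have hr : 0 < r := Nat.pos_of_ne_zero (NeZero.ne r)
  obtain ⟨d, hd⟩ := Nat.exists_eq_add_of_lt i.2
  have h1 : (univ.filter (fun p : Fin ((R * r) ^ K) => ¬ jj R r p i + 1 < R)).card ≤
      (range ((R * r) ^ d) ×ˢ range ((R * r) ^ (i : ℕ) * r)).card := by
    refine card_le_card_of_injOn (fun p => ((p : ℕ) / (R * r) ^ ((i : ℕ) + 1),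
      (p : ℕ) % ((R * r) ^ (i : ℕ) * r))) (fun p _ => ?_) (fun p hp p' hp' h => ?_)
    · simp only [coe_product, coe_range, Set.mem_prod, Set.mem_Iio]
      refine ⟨?_, Nat.mod_lt _ (by positivity)⟩
      rw [Nat.div_lt_iff_lt_mul (by positivity), ← pow_add]
      exact lt_of_lt_of_eq p.2 (by congr 1; omega)
    · replace hp := (mem_filter.1 (mem_coe.1 hp)).2
      replace hp' := (mem_filter.1 (mem_coe.1 hp')).2
      unfold jj at hp hp'
      simp only [Prod.mk.injEq, div_pow_succ] at h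
      have e1 := Nat.mod_lt ((p : ℕ) / ((R * r) ^ (i : ℕ) * r)) hR
      have e2 := Nat.mod_lt ((p' : ℕ) / ((R * r) ^ (i : ℕ) * r)) hR
      have e3 : (p : ℕ) / ((R * r) ^ (i : ℕ) * r) = p' / ((R * r) ^ (i : ℕ) * r) := by
        rw [← Nat.div_add_mod ((p : ℕ) / ((R * r) ^ (i : ℕ) * r)) R,
          ← Nat.div_add_mod ((p' : ℕ) / ((R * r) ^ (i : ℕ) * r)) R, h.1]
        congr 1; omega
      refine Fin.ext ?_
      rw [← Nat.div_add_mod (p : ℕ) ((R * r) ^ (i : ℕ) * r),
        ← Nat.div_add_mod (p' : ℕ) ((R * r) ^ (i : ℕ) * r), e3, h.2]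
  rw [card_product, card_range, card_range] at h1
  refine (Nat.mul_le_mul_left R h1).trans (le_of_eq ?_)
  conv_rhs => rw [hd]
  ring

theorem sum_card_shift (hR : 0 < R) (c₀ : Fin r) (i : Fin K) :
    ∑ ℓ₀, (if Canon c₀ i ℓ₀ then R else 0) * (univ.filter (fun p : Fin ((R * r) ^ K) =>
        Below (i + 1) ℓ₀ (leaf K r R p) ∧ ¬ jj R r p i + 1 < R)).card ≤ (R * r) ^ K := by
  refine le_trans ?_ (card_last_row (r := r) R hR i)
  simp_rw [card_filter, mul_sum]
  rw [sum_comm]
  refine sum_le_sum (fun p _ => ?_)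
  by_cases h : jj R r p i + 1 < R
  · simp [h]
  · rw [sum_eq_single (fun j : Fin K => if j ≤ i then c₀ else leaf K r R p j)]
    · simp only [h, not_false_eq_true, and_true, if_true, mul_one]
      split_ifs <;> simp
    · intro ℓ _ hne
      by_cases h1 : Canon c₀ i ℓ
      · by_cases h2 : Below (i + 1) ℓ (leaf K r R p)
        · refine absurd (funext (fun j => ?_)) hne
          by_cases hj : j ≤ i
          · rw [if_pos hj, h1 j hj]
          · rw [if_neg hj, h2 j (by have : (i : ℕ) < j := not_le.1 hj; omega)]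
        · simp [h2]
      · simp [h1]
    · simp

theorem sum_card_single :
    ∑ ℓ, (univ.filter (fun p : Fin ((R * r) ^ K) => leaf K r R p = ℓ)).card = (R * r) ^ K := by
  rw [← card_eq_sum_card_fiberwise (s := univ) (t := univ) (fun _ _ => mem_univ _)]
  simp

/-- A matched pair of positions forces a divisibility at some level. -/
theorem exists_level (hodd : ∀ i c, Nat.Coprime 2 (q i c))
    (hcop : ∀ (i j : Fin K) c d, j < i → Nat.Coprime (q i c) (q j d)) (θ : St q)
    (p p' : Fin ((R * r) ^ K)) (h : sym q R θ p = sym q R (θ + fun _ => (PP q K : ZMod _)) p') :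
    ∃ i : Fin K, jj R r p i ≠ jj R r p' i ∧
      jj R r p i ≡ jj R r p' i [MOD q i (leaf K r R p i)] := by
  classical
  obtain ⟨-, h2⟩ := tok_inj q h
  set ℓ := leaf K r R p
  have h3 : off q R p ≡ PP q K + off q R p' [MOD MM q ℓ] := by
    rw [← ZMod.natCast_eq_natCast_iff]
    rw [Pi.add_apply, add_assoc, add_right_inj] at h2
    push_cast
    exact h2
  have hne : (univ.filter (fun i : Fin K => jj R r p i ≠ jj R r p' i)).Nonempty := by
    by_contra hcon
    rw [not_nonempty_iff_eq_empty, filter_eq_empty_iff] at hcon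
    have h4 : off q R p = off q R p' :=
      sum_congr rfl (fun i hi => by rw [not_not.1 (hcon hi)])
    rw [h4] at h3
    have h5 : 0 + off q R p' ≡ PP q K + off q R p' [MOD 2] := by
      rw [zero_add]; exact h3.of_dvd (Dvd.intro _ rfl)
    have h6 : 2 ∣ PP q K := (Nat.modEq_zero_iff_dvd).1 (Nat.ModEq.add_right_cancel' _ h5).symm
    have h7 : Nat.Coprime 2 (PP q K) :=
      Nat.Coprime.prod_right (fun i _ => Nat.Coprime.prod_right (fun c _ => hodd i c))
    have := Nat.Coprime.eq_one_of_dvd h7 h6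
    omega
  let i := (univ.filter (fun i : Fin K => jj R r p i ≠ jj R r p' i)).min' hne
  refine ⟨i, (mem_filter.1 (min'_mem _ hne)).2, ?_⟩
  have hmin : ∀ j, j < i → jj R r p j = jj R r p' j := by
    intro j hj
    by_contra hcon
    exact absurd (min'_le _ j (mem_filter.2 ⟨mem_univ _, hcon⟩)) (not_le.2 hj)
  have hdvd : ∀ t : ℕ, (i : ℕ) < t → ((PP q t : ℕ) : ZMod (q i (ℓ i))) = 0 := by
    intro t ht
    rw [ZMod.natCast_eq_zero_iff]
    exact (dvd_prod_of_mem _ (mem_univ (ℓ i))).trans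
      (dvd_prod_of_mem (fun i => ∏ c, q i c) (mem_filter.2 ⟨mem_univ i, ht⟩))
  have h4 := h3.of_dvd (Dvd.dvd.mul_left (dvd_prod_of_mem (fun i => q i (ℓ i)) (mem_univ i)) 2)
  rw [← ZMod.natCast_eq_natCast_iff] at h4
  unfold off at h4
  push_cast at h4
  rw [hdvd K i.2, zero_add, ← sub_eq_zero, ← sum_sub_distrib, sum_eq_single i] at h4
  · rw [sub_eq_zero, ← Nat.cast_mul, ← Nat.cast_mul, ZMod.natCast_eq_natCast_iff] at h4
    refine Nat.ModEq.cancel_right_of_coprime ?_ h4
    exact Nat.Coprime.prod_right (fun j hj => Nat.Coprime.prod_right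
      (fun d _ => hcop i j _ d (mem_filter.1 hj).2))
  · intro j _ hj
    rcases lt_or_gt_of_ne hj with hlt | hlt
    · rw [hmin j hlt, sub_self]
    · rw [hdvd j hlt]; simp
  · simp

/-- Common subsequences of the far pairs are short. -/
theorem two_mul_le_of_matching (hR : 0 < R) (s : ℕ) (hs : 4 * K * s ≤ r)
    (hodd : ∀ i c, Nat.Coprime 2 (q i c))
    (hcop : ∀ (i j : Fin K) c d, j < i → Nat.Coprime (q i c) (q j d))
    (hfew : ∀ i (a b : ℕ), a < R → b < R → a ≠ b →
      (univ.filter (fun c => a ≡ b [MOD q i c])).card ≤ s) (θ : St q) {m : ℕ}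
    (f g : Fin m → Fin ((R * r) ^ K)) (hf : StrictMono f) (hg : StrictMono g)
    (hfg : ∀ t, sym q R θ (f t) = sym q R (θ + fun _ => (PP q K : ZMod _)) (g t)) :
    2 * m ≤ (R * r) ^ K := by
  classical
  have hr : 0 < r := Nat.pos_of_ne_zero (NeZero.ne r)
  let T : Fin K → Finset (Fin m) := fun i => univ.filter (fun t =>
    jj R r (f t) i ≠ jj R r (g t) i ∧
      jj R r (f t) i ≡ jj R r (g t) i [MOD q i (leaf K r R (f t) i)])
  have hT : ∀ i, r * (T i).card ≤ 2 * s * (R * r) ^ K := by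
    intro i
    obtain ⟨d, hd⟩ := Nat.exists_eq_add_of_lt i.2
    set h := (R * r) ^ (i : ℕ) * r with hh
    have hh0 : 0 < h := by positivity
    have hrow : ∀ p : Fin ((R * r) ^ K), (p : ℕ) / h < R * (R * r) ^ d := by
      intro p
      rw [Nat.div_lt_iff_lt_mul hh0]
      refine lt_of_lt_of_eq p.2 ?_
      conv_lhs => rw [hd]
      rw [hh]; ring
    have h1 := card_le_mul_card_image_of_maps_to (s := T i)
      (f := fun t => (f t : ℕ) / h + (g t : ℕ) / h) (t := range (2 * (R * (R * r) ^ d)))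
      (fun t _ => mem_range.2 (by have := hrow (f t); have := hrow (g t); omega))
      (s * (R * r) ^ (i : ℕ)) (fun σ _ => by
        rcases ((T i).filter (fun t => (f t : ℕ) / h + (g t : ℕ) / h = σ)).eq_empty_or_nonempty
          with h0 | ⟨t₀, ht₀⟩
        · rw [h0]; simp
        have hsame : ∀ t ∈ (T i).filter (fun t => (f t : ℕ) / h + (g t : ℕ) / h = σ),
            (f t : ℕ) / h = f t₀ / h ∧ (g t : ℕ) / h = g t₀ / h := by
          intro t ht
          have e1 := (mem_filter.1 ht).2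
          have e2 := (mem_filter.1 ht₀).2
          rcases le_total t t₀ with hle | hle
          · have e3 : (f t : ℕ) / h ≤ f t₀ / h := Nat.div_le_div_right (hf.monotone hle)
            have e4 : (g t : ℕ) / h ≤ g t₀ / h := Nat.div_le_div_right (hg.monotone hle)
            omega
          · have e3 : (f t₀ : ℕ) / h ≤ f t / h := Nat.div_le_div_right (hf.monotone hle)
            have e4 : (g t₀ : ℕ) / h ≤ g t / h := Nat.div_le_div_right (hg.monotone hle)
            omega
        have hS := hfew i (jj R r (f t₀) i) (jj R r (g t₀) i) (Nat.mod_lt _ hR) (Nat.mod_lt _ hR)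
          (mem_filter.1 (mem_filter.1 ht₀).1).2.1
        refine le_trans (card_le_card_of_injOn
          (t := (univ.filter (fun c => jj R r (f t₀) i ≡ jj R r (g t₀) i [MOD q i c])) ×ˢ
            range ((R * r) ^ (i : ℕ)))
          (fun t => (leaf K r R (f t) i, (f t : ℕ) % (R * r) ^ (i : ℕ))) (fun t ht => ?_)
          (fun t ht t' ht' hEq => ?_)) ?_
        · obtain ⟨e1, e2⟩ := hsame t ht
          have e3 := (mem_filter.1 (mem_filter.1 ht).1).2.2
          simp only [coe_product, coe_filter, mem_univ, true_and, coe_range, Set.mem_prod,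
            Set.mem_ofPred_eq, Set.mem_Iio]
          refine ⟨?_, Nat.mod_lt _ (by positivity)⟩
          unfold jj at e3 ⊢
          rwa [← hh, e1, e2] at e3
        · simp only [Prod.mk.injEq, leaf, Fin.mk.injEq] at hEq
          have e1 := ((hsame t ht).1).trans (hsame t' ht').1.symm
          rw [hh, ← Nat.div_div_eq_div_mul, ← Nat.div_div_eq_div_mul] at e1
          have e3 : (f t : ℕ) / (R * r) ^ (i : ℕ) = f t' / (R * r) ^ (i : ℕ) := by
            rw [← Nat.div_add_mod ((f t : ℕ) / (R * r) ^ (i : ℕ)) r,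
              ← Nat.div_add_mod ((f t' : ℕ) / (R * r) ^ (i : ℕ)) r, e1, hEq.1]
          refine hf.injective (Fin.ext ?_)
          rw [← Nat.div_add_mod (f t : ℕ) ((R * r) ^ (i : ℕ)),
            ← Nat.div_add_mod (f t' : ℕ) ((R * r) ^ (i : ℕ)), e3, hEq.2]
        · rw [card_product, card_range]
          exact Nat.mul_le_mul_right _ hS)
    rw [card_range] at h1
    refine (Nat.mul_le_mul_left r h1).trans (le_of_eq ?_)
    conv_rhs => rw [hd]
    ring
  have h2 : m ≤ ∑ i, (T i).card := by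
    refine le_trans ?_ card_biUnion_le
    conv_lhs => rw [← Fintype.card_fin m, ← card_univ]
    refine card_le_card (fun t _ => ?_)
    obtain ⟨i, hi⟩ := exists_level q R hodd hcop θ (f t) (g t) (hfg t)
    exact mem_biUnion.2 ⟨i, mem_univ _, mem_filter.2 ⟨mem_univ _, hi⟩⟩
  have h3 : r * m ≤ K * (2 * s * (R * r) ^ K) := by
    refine (Nat.mul_le_mul_left r h2).trans ?_
    rw [mul_sum]
    refine (sum_le_sum (fun i _ => hT i)).trans ?_
    simp
  refine Nat.le_of_mul_le_mul_left ?_ hr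
  calc r * (2 * m) = 2 * (r * m) := by ring
    _ ≤ 2 * (K * (2 * s * (R * r) ^ K)) := Nat.mul_le_mul_left _ h3
    _ = 4 * K * s * (R * r) ^ K := by ring
    _ ≤ r * (R * r) ^ K := Nat.mul_le_mul_right _ hs

theorem le_two_mul_editDist (he : CommaFree e L) (hR : 0 < R) (s : ℕ) (hs : 4 * K * s ≤ r)
    (hodd : ∀ i c, Nat.Coprime 2 (q i c))
    (hcop : ∀ (i j : Fin K) c d, j < i → Nat.Coprime (q i c) (q j d))
    (hfew : ∀ i (a b : ℕ), a < R → b < R → a ≠ b →
      (univ.filter (fun c => a ≡ b [MOD q i c])).card ≤ s) (θ : St q) :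
    (R * r) ^ K ≤ 2 * editDist ((List.ofFn (sym q R θ)).flatMap e)
      ((List.ofFn (sym q R (θ + fun _ => (PP q K : ZMod _)))).flatMap e) := by
  obtain ⟨zs, h1, h2, h3⟩ := he.exists_common (List.ofFn (sym q R θ))
    (List.ofFn (sym q R (θ + fun _ => (PP q K : ZMod _))))
  obtain ⟨f, g, hf, hg, hfg⟩ := exists_matching _ _ h1 h2
  have := two_mul_le_of_matching q R hR s hs hodd hcop hfew θ f g hf hg hfg
  rw [List.length_ofFn] at h3
  omega

end Crest.Agent.R210
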